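import Crest.Agent.CrouzeixT.Defs
import Crest.Agent.Crouzeix.ToeplitzHausdorff

/-!
# Analytic part of the operator chain (t-plane route).

Mean value for `Ext`, the operator function `D(t) = t G'(t) (G(t) - A)⁻¹` and its properties.
-/

set_option autoImplicit false
set_option linter.unusedSectionVars false

open Complex Filter Metric Set Topology
open scoped Real ComplexConjugate InnerProductSpace

noncomputable section

namespace Crest.Agent.CrouzeixT
namespace ChainAux

/-- `e^{iθ}` has norm one. -/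
lemma norm_circ (θ : ℝ) : ‖exp ((θ : ℂ) * I)‖ = 1 := Complex.norm_exp_ofReal_mul_I θ

/-- Mean value for functions holomorphic outside a disc of radius `< 1` with a limit at infinity. -/
theorem mean_of_Ext {r0 : ℝ} (h1 : r0 < 1) {f : ℂ → ℂ} {L : ℂ} (hf : Ext r0 f L) :
    mean f = L := by
  classical
  -- the function `g s = f (1/s)`, `g 0 = L`
  set g : ℂ → ℂ := fun s => if s = 0 then L else f s⁻¹ with hg
  have hg0 : g 0 = L := by simp [hg]
  have hgs : ∀ s, s ≠ 0 → g s = f s⁻¹ := fun s hs => by simp [hg, hs]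
  have hopen : IsOpen {t : ℂ | r0 < ‖t‖} := isOpen_lt continuous_const continuous_norm
  -- differentiability off `0`
  have hdiff : ∀ s ∈ ball (0 : ℂ) 1 \ {(0 : ℂ)}, DifferentiableAt ℂ g s := by
    rintro s ⟨hs1, hs0⟩
    have hs0' : s ≠ 0 := hs0
    have hsn : ‖s‖ < 1 := by simpa using hs1
    have hmem : r0 < ‖s⁻¹‖ := by
      rw [norm_inv]
      have hpos : 0 < ‖s‖ := norm_pos_iff.mpr hs0'
      have : 1 < ‖s‖⁻¹ := (one_lt_inv₀ hpos).mpr hsn
      linarith
    have h2 : DifferentiableAt ℂ (fun s : ℂ => f s⁻¹) s := by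
      have := (hf.diff.differentiableAt (hopen.mem_nhds hmem))
      exact this.comp s (differentiableAt_inv hs0')
    refine h2.congr_of_eventuallyEq ?_
    filter_upwards [isOpen_ne.mem_nhds hs0'] with y hy using hgs y hy
  -- continuity on the closed unit disc
  have hcont : ContinuousOn g (closedBall (0 : ℂ) 1) := by
    intro s hs
    by_cases hs0 : s = 0
    · subst hs0
      apply ContinuousAt.continuousWithinAt
      rw [ContinuousAt, hg0]
      rw [← nhdsNE_sup_pure (0 : ℂ), tendsto_sup]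
      refine ⟨?_, ?_⟩
      · have h3 : Tendsto (fun s : ℂ => f s⁻¹) (𝓝[≠] 0) (𝓝 L) :=
          hf.lim.comp tendsto_inv₀_nhdsNE_zero
        refine h3.congr' ?_
        filter_upwards [self_mem_nhdsWithin] with y hy using (hgs y hy).symm
      · rw [tendsto_pure_left]
        intro t ht
        rw [hg0]
        exact mem_of_mem_nhds ht
    · apply ContinuousAt.continuousWithinAt
      have hsn : ‖s‖ ≤ 1 := by simpa using hs
      have hmem : r0 < ‖s⁻¹‖ := by
        rw [norm_inv]
        have hpos : 0 < ‖s‖ := norm_pos_iff.mpr hs0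
        have : 1 ≤ ‖s‖⁻¹ := (one_le_inv₀ hpos).mpr hsn
        linarith
      have h2 : ContinuousAt (fun s : ℂ => f s⁻¹) s := by
        have := (hf.diff.differentiableAt (hopen.mem_nhds hmem)).continuousAt
        exact ContinuousAt.comp (f := fun s : ℂ => s⁻¹) this (continuousAt_inv₀ hs0)
      refine h2.congr ?_
      filter_upwards [isOpen_ne.mem_nhds hs0] with y hy using (hgs y hy).symm
  -- Cauchy integral formula
  have hC := Complex.circleIntegral_sub_inv_smul_of_differentiable_on_off_countable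
    (c := (0 : ℂ)) (w := (0 : ℂ)) (R := 1) (f := g) (s := {(0 : ℂ)})
    (Set.countable_singleton _) (by simp) hcont hdiff
  have hval : ∫ θ in (0 : ℝ)..2 * π, g (exp ((θ : ℂ) * I)) = 2 * π * L := by
    have h4 : (∮ z in C(0, 1), (z - 0)⁻¹ • g z)
        = I * ∫ θ in (0 : ℝ)..2 * π, g (exp ((θ : ℂ) * I)) := by
      rw [circleIntegral, ← intervalIntegral.integral_const_mul]
      apply intervalIntegral.integral_congr
      intro θ _
      simp only [circleMap, deriv_circleMap, sub_zero, zero_add, ofReal_one, one_mul, smul_eq_mul]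
      have hne : exp ((θ : ℂ) * I) ≠ 0 := exp_ne_zero _
      field_simp
    rw [h4, hg0] at hC
    have hI : (I : ℂ) ≠ 0 := I_ne_zero
    have : I * (∫ θ in (0 : ℝ)..2 * π, g (exp ((θ : ℂ) * I))) = I * (2 * π * L) := by
      rw [hC]; simp only [smul_eq_mul]; ring
    exact mul_left_cancel₀ hI this
  -- change of variables `θ ↦ 2π - θ`
  have hsub : ∫ θ in (0 : ℝ)..2 * π, f (exp ((θ : ℂ) * I)) =
      ∫ θ in (0 : ℝ)..2 * π, g (exp ((θ : ℂ) * I)) := by
    have h5 := intervalIntegral.integral_comp_sub_left (a := (0 : ℝ)) (b := 2 * π)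
      (fun θ : ℝ => f (exp ((θ : ℂ) * I))) (2 * π)
    simp only [sub_self, sub_zero] at h5
    rw [← h5]
    apply intervalIntegral.integral_congr
    intro θ _
    have hne : exp ((θ : ℂ) * I) ≠ 0 := exp_ne_zero _
    show f (exp (((2 * π - θ : ℝ) : ℂ) * I)) = g (exp ((θ : ℂ) * I))
    rw [hgs _ hne, ← exp_neg]
    congr 1
    have : (((2 * π - θ : ℝ) : ℂ) * I) = -((θ : ℂ) * I) + 2 * π * I := by push_cast; ring
    rw [this, exp_add, exp_two_pi_mul_I, mul_one]
  have hpi : ((2 * π : ℝ) : ℂ) ≠ 0 := by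
    have : (2 * π : ℝ) ≠ 0 := by positivity
    exact_mod_cast this
  unfold mean
  rw [hsub, hval]
  have : (2 * (π : ℂ) * L) = ((2 * π : ℝ) : ℂ) * L := by push_cast; ring
  rw [this, ← mul_assoc, inv_mul_cancel₀ hpi, one_mul]


/-! ### Algebra of `Ext` -/

lemma ext_mul {r0 : ℝ} {f g : ℂ → ℂ} {a b : ℂ} (hf : Ext r0 f a) (hg : Ext r0 g b) :
    Ext r0 (fun t => f t * g t) (a * b) :=
  ⟨hf.diff.mul hg.diff, hf.lim.mul hg.lim⟩

lemma ext_const (r0 : ℝ) (a : ℂ) : Ext r0 (fun _ => a) a :=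
  ⟨differentiableOn_const _, tendsto_const_nhds⟩

/-! ### Linearity of the mean -/

lemma circ_mem (θ : ℝ) : exp ((θ : ℂ) * I) ∈ sphere (0 : ℂ) 1 := by
  simp

lemma continuous_circ : Continuous (fun θ : ℝ => exp ((θ : ℂ) * I)) := by fun_prop

lemma circ_integrable {f : ℂ → ℂ} (hf : ContinuousOn f (sphere (0 : ℂ) 1)) :
    IntervalIntegrable (fun θ : ℝ => f (exp ((θ : ℂ) * I))) MeasureTheory.volume 0 (2 * π) := by
  apply Continuous.intervalIntegrable
  exact hf.comp_continuous continuous_circ circ_mem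

lemma mean_congr {f g : ℂ → ℂ} (h : ∀ t, ‖t‖ = 1 → f t = g t) : mean f = mean g := by
  unfold mean
  congr 1
  apply intervalIntegral.integral_congr
  intro θ _
  exact h _ (norm_circ θ)

lemma mean_add {f g : ℂ → ℂ} (hf : ContinuousOn f (sphere (0 : ℂ) 1))
    (hg : ContinuousOn g (sphere (0 : ℂ) 1)) :
    mean (fun t => f t + g t) = mean f + mean g := by
  unfold mean
  rw [intervalIntegral.integral_add (circ_integrable hf) (circ_integrable hg), mul_add]

lemma mean_sub {f g : ℂ → ℂ} (hf : ContinuousOn f (sphere (0 : ℂ) 1))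
    (hg : ContinuousOn g (sphere (0 : ℂ) 1)) :
    mean (fun t => f t - g t) = mean f - mean g := by
  unfold mean
  rw [intervalIntegral.integral_sub (circ_integrable hf) (circ_integrable hg), mul_sub]

lemma mean_const_mul (a : ℂ) (f : ℂ → ℂ) : mean (fun t => a * f t) = a * mean f := by
  unfold mean
  rw [intervalIntegral.integral_const_mul]
  ring

lemma mean_mul_const (a : ℂ) (f : ℂ → ℂ) : mean (fun t => f t * a) = mean f * a := by
  unfold mean
  rw [intervalIntegral.integral_mul_const]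
  ring

/-! ### Resolvent -/

section Resolvent

variable {H : Type*} [NormedAddCommGroup H] [InnerProductSpace ℂ H] [CompleteSpace H]

open Crest.Agent.Crouzeix (numRangeSet)

theorem mem_resolventSet [FiniteDimensional ℂ H] (A : H →L[ℂ] H) {z : ℂ}
    (hz : z ∉ numRangeSet A) : z ∈ resolventSet ℂ A := by
  rw [spectrum.mem_resolventSet_iff, ContinuousLinearMap.isUnit_iff_bijective]
  have hinj : Function.Injective (algebraMap ℂ (H →L[ℂ] H) z - A) := by
    rw [injective_iff_map_eq_zero]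
    intro x hx
    by_contra hx0
    apply hz
    have hA : A x = z • x := by
      have : z • x - A x = 0 := by simpa [Algebra.algebraMap_eq_smul_one] using hx
      exact (sub_eq_zero.mp this).symm
    have hnx : (‖x‖ : ℂ) ≠ 0 := by
      exact_mod_cast norm_ne_zero_iff.mpr hx0
    set y : H := ((‖x‖⁻¹ : ℝ) : ℂ) • x with hy
    have hyn : ‖y‖ = 1 := by
      rw [hy, norm_smul]
      simp only [Complex.norm_real, norm_inv, norm_norm]
      exact inv_mul_cancel₀ (norm_ne_zero_iff.mpr hx0)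
    refine ⟨y, hyn, ?_⟩
    have hAy : A y = z • y := by
      rw [hy, map_smul, hA, smul_comm]
    rw [hAy, inner_smul_right, inner_self_eq_norm_sq_to_K, hyn]
    simp
  have hsurj : Function.Surjective (algebraMap ℂ (H →L[ℂ] H) z - A) :=
    (LinearMap.injective_iff_surjective
      (f := ((algebraMap ℂ (H →L[ℂ] H) z - A : H →L[ℂ] H) : H →ₗ[ℂ] H))).mp hinj
  exact ⟨hinj, hsurj⟩

variable (A : H →L[ℂ] H)

lemma R_mul {z : ℂ} (hz : z ∈ resolventSet ℂ A) :
    resolvent A z * (algebraMap ℂ (H →L[ℂ] H) z - A) = 1 := by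
  rw [spectrum.resolvent_eq hz]
  exact IsUnit.val_inv_mul _

lemma mul_R {z : ℂ} (hz : z ∈ resolventSet ℂ A) :
    (algebraMap ℂ (H →L[ℂ] H) z - A) * resolvent A z = 1 := by
  rw [spectrum.resolvent_eq hz]
  exact IsUnit.mul_val_inv _

lemma smul_R_eq {z : ℂ} (hz : z ∈ resolventSet ℂ A) :
    z • resolvent A z = 1 + resolvent A z * A := by
  have h := R_mul A hz
  rw [mul_sub, Algebra.algebraMap_eq_smul_one, mul_smul_comm, mul_one, sub_eq_iff_eq_add] at h
  rw [h, add_comm]

/-- The operator function `D(t) = t G'(t) (G(t) - A)⁻¹`. -/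
noncomputable def Dop (G : ℂ → ℂ) (t : ℂ) : H →L[ℂ] H :=
  (t * deriv G t) • resolvent A (G t)


section Ana

variable {K : Set ℂ} {G : ℂ → ℂ} {r0 : ℝ} {c c0 : ℂ}

lemma isOpen_ext (r0 : ℝ) : IsOpen {t : ℂ | r0 < ‖t‖} :=
  isOpen_lt continuous_const continuous_norm

lemma eventually_ext (r0 : ℝ) : ∀ᶠ t : ℂ in Bornology.cobounded ℂ, r0 < ‖t‖ :=
  tendsto_norm_cobounded_atTop.eventually (eventually_gt_atTop r0)

lemma diff_deriv (hG : ConvexExtMap K G r0 c c0) :
    DifferentiableOn ℂ (deriv G) {t | r0 < ‖t‖} :=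
  hG.diff.deriv (isOpen_ext r0)

lemma diffAt (hG : ConvexExtMap K G r0 c c0) {t : ℂ} (ht : r0 < ‖t‖) : DifferentiableAt ℂ G t :=
  hG.diff.differentiableAt ((isOpen_ext r0).mem_nhds ht)

lemma cont_deriv_sphere (hG : ConvexExtMap K G r0 c c0) :
    ContinuousOn (deriv G) (sphere (0 : ℂ) 1) := by
  refine (diff_deriv hG).continuousOn.mono ?_
  intro t ht
  have : ‖t‖ = 1 := by simpa using ht
  show r0 < ‖t‖
  rw [this]; exact hG.r0_lt

lemma cont_G_sphere (hG : ConvexExtMap K G r0 c c0) :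
    ContinuousOn G (sphere (0 : ℂ) 1) := by
  refine hG.diff.continuousOn.mono ?_
  intro t ht
  have : ‖t‖ = 1 := by simpa using ht
  show r0 < ‖t‖
  rw [this]; exact hG.r0_lt

/-- `G' → c` at infinity: Cauchy's estimate. -/
lemma tendsto_deriv (hG : ConvexExtMap K G r0 c c0) :
    Tendsto (deriv G) (Bornology.cobounded ℂ) (𝓝 c) := by
  rw [Metric.tendsto_nhds]
  intro ε hε
  have h1 : ∀ᶠ t in Bornology.cobounded ℂ, ‖G t - c * t - c0‖ < ε / 2 := by
    have := (Metric.tendsto_nhds.mp hG.lim) (ε / 2) (half_pos hε)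
    filter_upwards [this] with t ht
    simpa [dist_eq_norm] using ht
  -- radius beyond which the estimate holds
  obtain ⟨ρ, hρ⟩ : ∃ ρ : ℝ, ∀ t : ℂ, ρ < ‖t‖ → ‖G t - c * t - c0‖ < ε / 2 := by
    rw [← comap_norm_atTop, Filter.eventually_comap] at h1
    obtain ⟨a, ha⟩ := Filter.eventually_atTop.mp h1
    exact ⟨a, fun t ht => ha ‖t‖ ht.le t rfl⟩
  set ρ' : ℝ := max ρ r0 with hρ'
  have hρ1 : ρ ≤ ρ' := le_max_left _ _
  have hρ2 : r0 ≤ ρ' := le_max_right _ _
  have h2 : ∀ᶠ t : ℂ in Bornology.cobounded ℂ, ρ' + 1 < ‖t‖ := eventually_ext _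
  filter_upwards [h2] with t ht
  -- closed ball around `t` lies in the good region
  have hball : ∀ s ∈ closedBall t 1, ρ' < ‖s‖ := by
    intro s hs
    have hs' : ‖s - t‖ ≤ 1 := by simpa [dist_eq_norm] using hs
    have : ‖t‖ ≤ ‖s‖ + ‖s - t‖ := by
      have := norm_sub_le s (s - t)
      simpa using this
    linarith
  set f : ℂ → ℂ := fun s => G s - c * s - c0 with hf
  have hfd : DifferentiableOn ℂ f (closedBall t 1) := by
    intro s hs
    have hs1 : r0 < ‖s‖ := lt_of_le_of_lt hρ2 (hball s hs)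
    apply DifferentiableAt.differentiableWithinAt
    exact ((diffAt hG hs1).sub ((differentiableAt_const _).mul differentiableAt_id)).sub
      (differentiableAt_const _)
  have hest : ‖deriv f t‖ ≤ (ε / 2) / 1 := by
    apply Complex.norm_deriv_le_of_forall_mem_sphere_norm_le one_pos (hfd.diffContOnCl_ball subset_rfl)
    intro s hs
    have hs1 : ρ < ‖s‖ := lt_of_le_of_lt hρ1 (hball s (sphere_subset_closedBall hs))
    exact (hρ s hs1).le
  have htr : r0 < ‖t‖ := by
    have : 0 ≤ ρ' + 1 - r0 := by linarith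
    linarith
  have hderiv : deriv f t = deriv G t - c := by
    have h3 : HasDerivAt f (deriv G t - c * 1 - 0) t :=
      (((diffAt hG htr).hasDerivAt).sub ((hasDerivAt_id t).const_mul c)).sub
        (hasDerivAt_const t c0)
    rw [h3.deriv]; ring
  rw [hderiv] at hest
  rw [dist_eq_norm]
  have : ε / 2 / 1 < ε := by linarith
  linarith

/-- `G → ∞` at infinity. -/
lemma tendsto_G (hG : ConvexExtMap K G r0 c c0) :
    Tendsto G (Bornology.cobounded ℂ) (Bornology.cobounded ℂ) := by
  rw [← tendsto_norm_atTop_iff_cobounded]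
  have hc : 0 < ‖c‖ := norm_pos_iff.mpr hG.c_ne
  have h1 : Tendsto (fun t : ℂ => ‖c‖ * ‖t‖) (Bornology.cobounded ℂ) atTop :=
    (tendsto_norm_cobounded_atTop).const_mul_atTop hc
  have h2 : Tendsto (fun t : ℂ => ‖c‖ * ‖t‖ + (-‖G t - c * t‖)) (Bornology.cobounded ℂ) atTop :=
    h1.atTop_add (hG.lim.norm.neg)
  refine tendsto_atTop_mono ?_ h2
  intro t
  have : ‖c * t‖ ≤ ‖G t‖ + ‖G t - c * t‖ := by
    have := norm_sub_le (G t) (G t - c * t)
    simpa using this
  rw [norm_mul] at this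
  linarith

/-- `G t / t → c`. -/
lemma tendsto_G_div (hG : ConvexExtMap K G r0 c c0) :
    Tendsto (fun t => G t * t⁻¹) (Bornology.cobounded ℂ) (𝓝 c) := by
  have h1 : Tendsto (fun t : ℂ => c + (G t - c * t) * t⁻¹) (Bornology.cobounded ℂ)
      (𝓝 (c + c0 * 0)) :=
    tendsto_const_nhds.add (hG.lim.mul tendsto_inv₀_cobounded)
  rw [mul_zero, add_zero] at h1
  refine h1.congr' ?_
  have h0 : ∀ᶠ t : ℂ in Bornology.cobounded ℂ, 0 < ‖t‖ := eventually_ext 0
  filter_upwards [h0] with t ht
  have : t ≠ 0 := norm_pos_iff.mp ht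
  field_simp
  ring

variable {H : Type*} [NormedAddCommGroup H] [InnerProductSpace ℂ H] [CompleteSpace H]
  [FiniteDimensional ℂ H]

open Crest.Agent.Crouzeix (numRangeSet)

variable (A : H →L[ℂ] H)

lemma G_mem (hA : numRangeSet A ⊆ K) (hG : ConvexExtMap K G r0 c c0) {t : ℂ} (ht : r0 < ‖t‖) :
    G t ∈ resolventSet ℂ A :=
  mem_resolventSet A fun h => hG.out t ht (hA h)

lemma R_diff (hA : numRangeSet A ⊆ K) (hG : ConvexExtMap K G r0 c c0) :
    DifferentiableOn ℂ (fun t => resolvent A (G t)) {t | r0 < ‖t‖} := by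
  intro t ht
  apply DifferentiableAt.differentiableWithinAt
  have h1 := (spectrum.hasDerivAt_resolvent_const_left (G_mem A hA hG ht)).differentiableAt
  exact DifferentiableAt.comp (f := G) (g := resolvent A) t h1 (diffAt hG ht)

lemma Dop_diff (hA : numRangeSet A ⊆ K) (hG : ConvexExtMap K G r0 c c0) :
    DifferentiableOn ℂ (Dop A G) {t | r0 < ‖t‖} :=
  (differentiableOn_id.mul (diff_deriv hG)).smul (R_diff A hA hG)

/-- `D(t) → 1` at infinity. -/
lemma tendsto_Dop (hA : numRangeSet A ⊆ K) (hG : ConvexExtMap K G r0 c c0) :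
    Tendsto (Dop A G) (Bornology.cobounded ℂ) (𝓝 1) := by
  have h1 : Tendsto (fun t => resolvent A (G t)) (Bornology.cobounded ℂ) (𝓝 0) :=
    (spectrum.resolvent_tendsto_cobounded A).comp (tendsto_G hG)
  have h2 : Tendsto (fun t => (1 : H →L[ℂ] H) + resolvent A (G t) * A) (Bornology.cobounded ℂ)
      (𝓝 (1 + 0 * A)) :=
    tendsto_const_nhds.add (h1.mul tendsto_const_nhds)
  rw [zero_mul, add_zero] at h2
  have h3 : Tendsto (fun t => deriv G t * (G t * t⁻¹)⁻¹) (Bornology.cobounded ℂ) (𝓝 (c * c⁻¹)) :=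
    (tendsto_deriv hG).mul ((tendsto_G_div hG).inv₀ (inv_ne_zero hG.c_ne |> fun _ => hG.c_ne))
  rw [mul_inv_cancel₀ hG.c_ne] at h3
  have h4 := h3.smul h2
  rw [one_smul] at h4
  refine h4.congr' ?_
  have h0 : ∀ᶠ t : ℂ in Bornology.cobounded ℂ, r0 < ‖t‖ ∧ 0 < ‖t‖ :=
    (eventually_ext r0).and (eventually_ext 0)
  have h5 : ∀ᶠ t : ℂ in Bornology.cobounded ℂ, G t ≠ 0 := by
    have : ∀ᶠ t : ℂ in Bornology.cobounded ℂ, 0 < ‖G t‖ :=
      (tendsto_G hG).eventually (eventually_ext 0)
    filter_upwards [this] with t ht using norm_pos_iff.mp ht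
  filter_upwards [h0, h5] with t ht h5
  have ht0 : t ≠ 0 := norm_pos_iff.mp ht.2
  rw [← smul_R_eq A (G_mem A hA hG ht.1), smul_smul]
  unfold Dop
  congr 1
  field_simp

/-- Matrix-coefficient function of `D(t)`. -/
lemma ext_Dop (hA : numRangeSet A ⊆ K) (hG : ConvexExtMap K G r0 c c0) (v w : H) :
    Ext r0 (fun t => inner ℂ v (Dop A G t w)) (inner ℂ v w) := by
  constructor
  · intro t ht
    apply DifferentiableAt.differentiableWithinAt
    have h1 : DifferentiableAt ℂ (Dop A G) t :=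
      (Dop_diff A hA hG).differentiableAt ((isOpen_ext r0).mem_nhds ht)
    -- the linear functional `T ↦ ⟪v, T w⟫`
    let L : (H →L[ℂ] H) →L[ℂ] ℂ := (innerSL ℂ v) ∘L (ContinuousLinearMap.apply ℂ H w)
    exact (L.differentiableAt).comp t h1
  · let L : (H →L[ℂ] H) →L[ℂ] ℂ := (innerSL ℂ v) ∘L (ContinuousLinearMap.apply ℂ H w)
    have h2 := (L.continuous.tendsto 1).comp (tendsto_Dop A hA hG)
    have h3 : L 1 = inner ℂ v w := by simp [L]
    rw [h3] at h2
    exact h2


lemma Ext.cont_sphere {f : ℂ → ℂ} {L : ℂ} (h1 : r0 < 1) (hf : Ext r0 f L) :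
    ContinuousOn f (sphere (0 : ℂ) 1) := by
  refine hf.diff.continuousOn.mono ?_
  intro t ht
  have : ‖t‖ = 1 := by simpa using ht
  show r0 < ‖t‖
  rw [this]; exact h1

lemma hasDerivAt_circ (θ : ℝ) :
    HasDerivAt (fun θ : ℝ => exp ((θ : ℂ) * I)) (exp ((θ : ℂ) * I) * I) θ := by
  have h : HasDerivAt (fun θ : ℝ => (θ : ℂ) * I) (1 * I) θ :=
    (Complex.ofRealCLM.hasDerivAt (x := θ)).mul_const I
  have := h.cexp
  simpa using this

/-- `mean (G^k t G') = 0`. -/
lemma mean_G_pow_deriv (hG : ConvexExtMap K G r0 c c0) (k : ℕ) :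
    mean (fun t => G t ^ k * (t * deriv G t)) = 0 := by
  have hcont : ContinuousOn (fun t => G t ^ k * (t * deriv G t)) (sphere (0 : ℂ) 1) :=
    ((cont_G_sphere hG).pow k).mul (continuousOn_id.mul (cont_deriv_sphere hG))
  have hk : ((k : ℂ) + 1) * I ≠ 0 := by
    refine mul_ne_zero ?_ I_ne_zero
    exact_mod_cast Nat.succ_ne_zero k
  have hFTC : ∫ θ in (0 : ℝ)..2 * π, (((k : ℂ) + 1) * I) *
      (fun t => G t ^ k * (t * deriv G t)) (exp ((θ : ℂ) * I)) =
      G (exp (((2 * π : ℝ) : ℂ) * I)) ^ (k + 1) - G (exp (((0 : ℝ) : ℂ) * I)) ^ (k + 1) := by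
    apply intervalIntegral.integral_eq_sub_of_hasDerivAt
      (f := fun θ : ℝ => G (exp ((θ : ℂ) * I)) ^ (k + 1))
    · intro θ _
      have hr : r0 < ‖exp ((θ : ℂ) * I)‖ := by rw [norm_circ]; exact hG.r0_lt
      have h1 : HasDerivAt G (deriv G (exp ((θ : ℂ) * I))) (exp ((θ : ℂ) * I)) :=
        (diffAt hG hr).hasDerivAt
      have h2 := h1.scomp θ (hasDerivAt_circ θ)
      have h3 := h2.pow (k + 1)
      have h4 : HasDerivAt (fun θ : ℝ => G (exp ((θ : ℂ) * I)) ^ (k + 1))
          (((k + 1 : ℕ) : ℂ) * G (exp ((θ : ℂ) * I)) ^ (k + 1 - 1) *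
            ((exp ((θ : ℂ) * I) * I) • deriv G (exp ((θ : ℂ) * I)))) θ := h3
      refine h4.congr_deriv ?_
      simp only [Nat.add_sub_cancel, smul_eq_mul, Nat.cast_add, Nat.cast_one]
      ring
    · exact ((circ_integrable hcont).const_mul _)
  have h2pi : exp (((2 * π : ℝ) : ℂ) * I) = 1 := by
    push_cast; exact exp_two_pi_mul_I
  have h0 : exp (((0 : ℝ) : ℂ) * I) = 1 := by simp
  rw [h2pi, h0, sub_self, intervalIntegral.integral_const_mul] at hFTC
  unfold mean
  rw [(mul_eq_zero.mp hFTC).resolve_left hk, mul_zero]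

/-- Mean value of the matrix coefficients. -/
lemma mean_Dop (hA : numRangeSet A ⊆ K) (hG : ConvexExtMap K G r0 c c0) (v w : H) :
    mean (fun t => inner ℂ v (Dop A G t w)) = inner ℂ v w :=
  mean_of_Ext hG.r0_lt (ext_Dop A hA hG v w)

/-- Product rule (I3). -/
lemma mean_Dop_mul (hA : numRangeSet A ⊆ K) (hG : ConvexExtMap K G r0 c c0) (v w v' w' : H) :
    mean (fun t => inner ℂ v (Dop A G t w) * inner ℂ v' (Dop A G t w')) =
      inner ℂ v w * inner ℂ v' w' :=
  mean_of_Ext hG.r0_lt (ext_mul (ext_Dop A hA hG v w) (ext_Dop A hA hG v' w'))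

lemma cont_Dop (hA : numRangeSet A ⊆ K) (hG : ConvexExtMap K G r0 c c0) (v w : H) :
    ContinuousOn (fun t => inner ℂ v (Dop A G t w)) (sphere (0 : ℂ) 1) :=
  Ext.cont_sphere hG.r0_lt (ext_Dop A hA hG v w)

/-- (I1), powers of `G`. -/
lemma mean_pow_Dop (hA : numRangeSet A ⊆ K) (hG : ConvexExtMap K G r0 c c0) (v : H) (k : ℕ) :
    ∀ w : H, mean (fun t => G t ^ k * inner ℂ v (Dop A G t w)) = inner ℂ v ((A ^ k) w) := by
  induction k with
  | zero =>
    intro w
    simpa using mean_Dop A hA hG v w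
  | succ k ih =>
    intro w
    have hmain : ∀ t, ‖t‖ = 1 → G t ^ (k + 1) * inner ℂ v (Dop A G t w) =
        G t ^ k * (t * deriv G t) * inner ℂ v w + G t ^ k * inner ℂ v (Dop A G t (A w)) := by
      intro t ht
      have hr : r0 < ‖t‖ := by rw [ht]; exact hG.r0_lt
      have h1 : G t • resolvent A (G t) w = w + resolvent A (G t) (A w) := by
        have := smul_R_eq A (G_mem A hA hG hr)
        have h2 := congrArg (fun T : H →L[ℂ] H => T w) this
        simpa using h2
      have h3 : G t * inner ℂ v (resolvent A (G t) w) =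
          inner ℂ v w + inner ℂ v (resolvent A (G t) (A w)) := by
        rw [← inner_smul_right, h1, inner_add_right]
      simp only [Dop, smul_apply, inner_smul_right]
      calc G t ^ (k + 1) * ((t * deriv G t) * inner ℂ v (resolvent A (G t) w))
          = G t ^ k * (t * deriv G t) * (G t * inner ℂ v (resolvent A (G t) w)) := by ring
        _ = _ := by rw [h3]; ring
    rw [mean_congr hmain]
    have hc1 : ContinuousOn (fun t => G t ^ k * (t * deriv G t) * inner ℂ v w)
        (sphere (0 : ℂ) 1) :=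
      (((cont_G_sphere hG).pow k).mul (continuousOn_id.mul (cont_deriv_sphere hG))).mul
        continuousOn_const
    have hc2 : ContinuousOn (fun t => G t ^ k * inner ℂ v (Dop A G t (A w)))
        (sphere (0 : ℂ) 1) :=
      ((cont_G_sphere hG).pow k).mul (cont_Dop A hA hG v (A w))
    rw [mean_add hc1 hc2, mean_mul_const, mean_G_pow_deriv hG, zero_mul, zero_add, ih (A w)]
    rw [pow_succ]
    rfl

/-- (I1), polynomials of `G`. -/
lemma mean_poly_Dop (hA : numRangeSet A ⊆ K) (hG : ConvexExtMap K G r0 c c0) (v w : H)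
    (P : Polynomial ℂ) :
    mean (fun t => P.eval (G t) * inner ℂ v (Dop A G t w)) =
      inner ℂ v ((Polynomial.aeval A P) w) := by
  induction P using Polynomial.induction_on' with
  | add p q hp hq =>
    have hc : ∀ r : Polynomial ℂ, ContinuousOn
        (fun t => r.eval (G t) * inner ℂ v (Dop A G t w)) (sphere (0 : ℂ) 1) := fun r =>
      ((r.continuous.comp_continuousOn (cont_G_sphere hG))).mul (cont_Dop A hA hG v w)
    have : (fun t => (p + q).eval (G t) * inner ℂ v (Dop A G t w)) =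
        fun t => p.eval (G t) * inner ℂ v (Dop A G t w) +
          q.eval (G t) * inner ℂ v (Dop A G t w) := by
      funext t
      rw [Polynomial.eval_add]; ring
    rw [this, mean_add (hc p) (hc q), hp, hq, map_add, add_apply,
      inner_add_right]
  | monomial n a =>
    have : (fun t => (Polynomial.monomial n a).eval (G t) * inner ℂ v (Dop A G t w)) =
        fun t => a * (G t ^ n * inner ℂ v (Dop A G t w)) := by
      funext t
      rw [Polynomial.eval_monomial]; ring
    rw [this, mean_const_mul, mean_pow_Dop A hA hG v n w, Polynomial.aeval_monomial]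
    simp [Algebra.algebraMap_eq_smul_one]

/-- (I2) the real part of `D(t)` is positive semidefinite on the circle. -/
lemma re_inner_Dop_nonneg (hA : numRangeSet A ⊆ K) (hG : ConvexExtMap K G r0 c c0)
    {t : ℂ} (ht : ‖t‖ = 1) (u : H) : 0 ≤ (inner ℂ u (Dop A G t u)).re := by
  have hr : r0 < ‖t‖ := by rw [ht]; exact hG.r0_lt
  have hmem := G_mem A hA hG hr
  set z := G t with hz
  set η := resolvent A z u with hη
  have hu : z • η - A η = u := by
    have := congrArg (fun T : H →L[ℂ] H => T u) (mul_R A hmem)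
    simpa [Algebra.algebraMap_eq_smul_one] using this
  by_cases hη0 : η = 0
  · have : u = 0 := by rw [← hu, hη0]; simp
    simp [this]
  have hn : (‖η‖ : ℂ) ≠ 0 := by exact_mod_cast norm_ne_zero_iff.mpr hη0
  have hnr : ‖η‖ ≠ 0 := norm_ne_zero_iff.mpr hη0
  -- the numerical range point
  set y : H := ((‖η‖⁻¹ : ℝ) : ℂ) • η with hy
  have hyn : ‖y‖ = 1 := by
    rw [hy, norm_smul]
    simp only [Complex.norm_real, norm_inv, norm_norm]
    exact inv_mul_cancel₀ hnr
  set w : ℂ := inner ℂ y (A y) with hw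
  have hwK : w ∈ K := hA ⟨y, hyn, rfl⟩
  have hsupp := hG.supp_K t ht w hwK
  -- `⟪η, A η⟫ = ‖η‖² w`
  have h1 : (inner ℂ η (A η) : ℂ) = (‖η‖ : ℂ) ^ 2 * w := by
    rw [hw, hy, map_smul, inner_smul_left, inner_smul_right]
    simp only [Complex.conj_ofReal]
    push_cast
    field_simp
  have h2 : inner ℂ u η = (‖η‖ : ℂ) ^ 2 * conj (z - w) := by
    rw [← hu, inner_sub_left, inner_smul_left, inner_self_eq_norm_sq_to_K, map_sub, mul_sub,
      ← inner_conj_symm (A η) η, h1, map_mul, map_pow, Complex.conj_ofReal]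
    simp only [Complex.coe_algebraMap]
    ring
  have h3 : (inner ℂ u (Dop A G t u) : ℂ) = (t * deriv G t) * inner ℂ u η := by
    simp only [Dop, smul_apply, inner_smul_right, hη, hz]
  rw [h3, h2]
  have h4 : (t * deriv G t) * ((‖η‖ : ℂ) ^ 2 * conj (z - w)) =
      ((‖η‖ ^ 2 : ℝ) : ℂ) * conj (conj (t * deriv G t) * (z - w)) := by
    rw [map_mul, Complex.conj_conj]
    push_cast
    ring
  rw [h4, Complex.re_ofReal_mul, Complex.conj_re]
  exact mul_nonneg (by positivity) hsupp

/-- (I4) the key identity for the real trigonometric polynomials. -/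
lemma mean_rePoly_Dop (hA : numRangeSet A ⊆ K) (hG : ConvexExtMap K G r0 c c0) (v w : H)
    {u P : Polynomial ℂ} {h : ℂ → ℂ} (hh : Ext r0 h 0)
    (hP : ∀ t, ‖t‖ = 1 → P.eval (G t) = (rePoly u t : ℂ) + h t) :
    mean (fun t => (rePoly u t : ℂ) * inner ℂ v (Dop A G t w)) =
      inner ℂ v ((Polynomial.aeval A P) w) := by
  have h1 : ∀ t, ‖t‖ = 1 → (rePoly u t : ℂ) * inner ℂ v (Dop A G t w) =
      P.eval (G t) * inner ℂ v (Dop A G t w) - h t * inner ℂ v (Dop A G t w) := by
    intro t ht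
    rw [hP t ht]; ring
  rw [mean_congr h1]
  have hc1 : ContinuousOn (fun t => P.eval (G t) * inner ℂ v (Dop A G t w)) (sphere (0 : ℂ) 1) :=
    ((P.continuous.comp_continuousOn (cont_G_sphere hG))).mul (cont_Dop A hA hG v w)
  have hc2 := Ext.cont_sphere hG.r0_lt (ext_mul hh (ext_Dop A hA hG v w))
  rw [mean_sub hc1 hc2, mean_poly_Dop A hA hG, mean_of_Ext hG.r0_lt (ext_mul hh (ext_Dop A hA hG v w))]
  simp

end Ana

end Resolvent


/-! ### Density of the real trigonometric polynomials -/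

section Density

open AddCircle

/-- Every element of the span of the Fourier monomials has the form `u(z) + conj (v(z))`. -/
lemma span_fourier_form [hT : Fact (0 < (2 * π : ℝ))] (g : C(AddCircle (2 * π), ℂ))
    (hg : g ∈ Submodule.span ℂ (Set.range (@fourier (2 * π)))) :
    ∃ u v : Polynomial ℂ, ∀ x : AddCircle (2 * π),
      g x = u.eval ((toCircle x : Circle) : ℂ) + conj (v.eval ((toCircle x : Circle) : ℂ)) := by
  induction hg using Submodule.span_induction with
  | mem g hg =>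
    obtain ⟨n, rfl⟩ := hg
    obtain ⟨k, rfl | rfl⟩ := n.eq_nat_or_neg
    · refine ⟨Polynomial.X ^ k, 0, fun x => ?_⟩
      simp [fourier_apply, toCircle_nsmul]
    · refine ⟨0, Polynomial.X ^ k, fun x => ?_⟩
      simp only [fourier_apply, toCircle_zsmul, zpow_neg, zpow_natCast]
      have h : (((toCircle x : Circle) : ℂ))⁻¹ = conj ((toCircle x : Circle) : ℂ) := by
        rw [← Circle.coe_inv, Circle.coe_inv_eq_conj]
      simp [← inv_pow, h]
  | zero =>
    exact ⟨0, 0, fun x => by simp⟩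
  | add a b _ _ ha hb =>
    obtain ⟨u, v, h⟩ := ha
    obtain ⟨u', v', h'⟩ := hb
    refine ⟨u + u', v + v', fun x => ?_⟩
    simp only [ContinuousMap.add_apply, h, h', Polynomial.eval_add, map_add]
    ring
  | smul a g _ ih =>
    obtain ⟨u, v, h⟩ := ih
    refine ⟨Polynomial.C a * u, Polynomial.C (conj a) * v, fun x => ?_⟩
    simp only [ContinuousMap.smul_apply, h, Polynomial.eval_mul, Polynomial.eval_C, map_mul,
      Complex.conj_conj, smul_eq_mul]
    ring

/-- Uniform density of real parts of polynomials in the real continuous functions on the circle. -/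
theorem exists_rePoly_approx (f : C(Circle, ℝ)) {ε : ℝ} (hε : 0 < ε) :
    ∃ u : Polynomial ℂ, ∀ z : Circle, |rePoly u (z : ℂ) - f z| ≤ ε := by
  have : Fact (0 < (2 * π : ℝ)) := ⟨Real.two_pi_pos⟩
  let F : C(AddCircle (2 * π), ℂ) :=
    ⟨fun x => ((f (toCircle x) : ℝ) : ℂ),
      Complex.continuous_ofReal.comp (f.continuous.comp continuous_toCircle)⟩
  have hF : F ∈ (Submodule.span ℂ (Set.range (@fourier (2 * π)))).topologicalClosure := by
    rw [span_fourier_closure_eq_top]; trivial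
  rw [← SetLike.mem_coe, Submodule.topologicalClosure_coe, Metric.mem_closure_iff] at hF
  obtain ⟨g, hg, hgF⟩ := hF ε hε
  obtain ⟨u, v, huv⟩ := span_fourier_form g hg
  refine ⟨u + v, fun z => ?_⟩
  -- choose the preimage of `z`
  let x : AddCircle (2 * π) := (homeomorphCircle Real.two_pi_pos.ne').symm z
  have hx : toCircle x = z := by
    rw [← homeomorphCircle_apply Real.two_pi_pos.ne']
    simp [x]
  have h1 : ‖F x - g x‖ ≤ ‖F - g‖ := by
    have := ContinuousMap.norm_coe_le_norm (F - g) x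
    simpa using this
  have h2 : ‖F - g‖ < ε := by
    rw [← dist_eq_norm]; exact hgF
  have h3 : (F x - g x).re = f z - rePoly (u + v) (z : ℂ) := by
    have hFx : F x = ((f z : ℝ) : ℂ) := by
      show ((f (toCircle x) : ℝ) : ℂ) = _
      rw [hx]
    rw [Complex.sub_re, hFx, huv x, hx]
    simp [rePoly]
  have h4 : |(F x - g x).re| ≤ ‖F x - g x‖ := Complex.abs_re_le_norm _
  rw [h3] at h4
  rw [abs_sub_comm]
  linarith

end Density

end ChainAux
end Crest.Agent.CrouzeixT
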