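import Mathlib

/-!
# Crouzeix (complete version): interface definitions, t-plane formulation.

`Ext r0 f L`: `f` is holomorphic on `{t | r0 < ‖t‖}` with limit `L` at infinity.
`mean f`: the mean of `f` over the unit circle.
`ConvexExtMap K G r0 c c0`: `G` is a conformal parametrisation of the exterior of a convex curve
around `K` (a level curve of the exterior Riemann map of `K`).
-/

open Complex Filter Metric Set Topology
open scoped Real

namespace Crest.Agent.CrouzeixT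

/-- `f` holomorphic on `r0 < ‖t‖` with limit `L` at `∞`. -/
structure Ext (r0 : ℝ) (f : ℂ → ℂ) (L : ℂ) : Prop where
  diff : DifferentiableOn ℂ f {t | r0 < ‖t‖}
  lim : Tendsto f (Bornology.cobounded ℂ) (𝓝 L)

/-- Mean of `f` over the unit circle: `(1/2π) ∫₀^{2π} f(e^{iθ}) dθ`. -/
noncomputable def mean (f : ℂ → ℂ) : ℂ :=
  ((2 * π : ℝ) : ℂ)⁻¹ * ∫ θ in (0 : ℝ)..2 * π, f (exp ((θ : ℂ) * I))

/-- Mean of a real function over the unit circle. -/
noncomputable def rmean (f : ℂ → ℝ) : ℝ :=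
  (2 * π)⁻¹ * ∫ θ in (0 : ℝ)..2 * π, f (exp ((θ : ℂ) * I))

/-- The exterior map data: `G` holomorphic, injective on `r0 < ‖t‖`, `G t - c t → c0` at `∞`,
`G` avoids `K`, and the curve `G(𝕋)` is convex with `K` inside, expressed by support inequalities
at `σ = G t`, with outer normal direction `t G'(t)`. -/
structure ConvexExtMap (K : Set ℂ) (G : ℂ → ℂ) (r0 : ℝ) (c c0 : ℂ) : Prop where
  r0_pos : 0 < r0
  r0_lt : r0 < 1
  diff : DifferentiableOn ℂ G {t | r0 < ‖t‖}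
  inj : InjOn G {t | r0 < ‖t‖}
  deriv_ne : ∀ t, r0 < ‖t‖ → deriv G t ≠ 0
  c_ne : c ≠ 0
  lim : Tendsto (fun t => G t - c * t) (Bornology.cobounded ℂ) (𝓝 c0)
  out : ∀ t, r0 < ‖t‖ → G t ∉ K
  supp_K : ∀ t, ‖t‖ = 1 → ∀ z ∈ K, 0 ≤ ((starRingEnd ℂ) (t * deriv G t) * (G t - z)).re
  supp_curve : ∀ t τ, ‖t‖ = 1 → ‖τ‖ = 1 →
    0 ≤ ((starRingEnd ℂ) (t * deriv G t) * (G t - G τ)).re

/-- Real trigonometric polynomial given as the real part of a polynomial in `t`. -/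
noncomputable def rePoly (u : Polynomial ℂ) (t : ℂ) : ℝ := (u.eval t).re

/-! ## Interface statements (proved in the sibling files)

* `RMT.lean`:  `exists_riemann_map {U : Set ℂ} (hU : IsOpen U) (hb : Bornology.IsBounded U)
    (h0 : (0:ℂ) ∈ U) (hs : StarConvex ℝ (0:ℂ) U) :
    ∃ f : ℂ → ℂ, DifferentiableOn ℂ f U ∧ InjOn f U ∧ f '' U = ball 0 1 ∧ f 0 = 0 ∧
      ∀ z ∈ U, deriv f z ≠ 0`
* `Level.lean`: `exists_convexExtMap {K : Set ℂ} (hKc : IsCompact K) (hKconv : Convex ℝ K)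
    (h0 : (0:ℂ) ∈ interior K) {V : Set ℂ} (hV : IsOpen V) (hKV : K ⊆ V) :
    ∃ G r0 c c0, ConvexExtMap K G r0 c c0 ∧ ∀ t, ‖t‖ = 1 → G t ∈ V`
* `Faber.lean`: `main_lemma (hG : ConvexExtMap K G r0 c c0) (u : Polynomial ℂ) :
    ∃ (P : Polynomial ℂ) (h : ℂ → ℂ), Ext r0 h 0 ∧
      (∀ t, ‖t‖ = 1 → P.eval (G t) = (rePoly u t : ℂ) + h t) ∧
      rmean (fun t => ‖P.eval (G t)‖ ^ 2) ≤ rmean (fun t => (rePoly u t) ^ 2)`
* `Chain.lean`: the operator chain: finite-dimensional `A` with numerical range in `K`, matrix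
  polynomial `B` bounded by `M` on the curve `G(𝕋)`; then `‖P[A] v‖ ≤ 2 M ‖v‖`.
-/

end Crest.Agent.CrouzeixT
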