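import Crest.Agent.CrouzeixT.Defs

/-!
# Exterior analytic functions: basic calculus.
-/

open Complex Filter Metric Set Topology
open scoped Real ComplexConjugate

noncomputable section

namespace Crest.Agent.CrouzeixT

/-- The exterior region. -/
abbrev S (r : ℝ) : Set ℂ := {t | r < ‖t‖}

lemma isOpen_S (r : ℝ) : IsOpen (S r) := isOpen_lt continuous_const continuous_norm

lemma S_mem_nhds {r : ℝ} {t : ℂ} (ht : r < ‖t‖) : S r ∈ 𝓝 t := (isOpen_S r).mem_nhds ht

lemma eventually_S (r : ℝ) : ∀ᶠ t in Bornology.cobounded ℂ, t ∈ S r := by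
  have := (tendsto_norm_cobounded_atTop (E := ℂ)).eventually (eventually_gt_atTop r)
  exact this

namespace Ext

variable {r : ℝ} {f g : ℂ → ℂ} {L M : ℂ}

lemma mono {r' : ℝ} (h : Ext r f L) (hr : r ≤ r') : Ext r' f L :=
  ⟨h.diff.mono (fun _ ht => lt_of_le_of_lt hr ht), h.lim⟩

lemma const (a : ℂ) : Ext r (fun _ => a) a := ⟨differentiableOn_const a, tendsto_const_nhds⟩

lemma add (hf : Ext r f L) (hg : Ext r g M) : Ext r (fun t => f t + g t) (L + M) :=
  ⟨hf.diff.add hg.diff, hf.lim.add hg.lim⟩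

lemma sub (hf : Ext r f L) (hg : Ext r g M) : Ext r (fun t => f t - g t) (L - M) :=
  ⟨hf.diff.sub hg.diff, hf.lim.sub hg.lim⟩

lemma mul (hf : Ext r f L) (hg : Ext r g M) : Ext r (fun t => f t * g t) (L * M) :=
  ⟨hf.diff.mul hg.diff, hf.lim.mul hg.lim⟩

lemma const_mul (a : ℂ) (hf : Ext r f L) : Ext r (fun t => a * f t) (a * L) :=
  (const a).mul hf

lemma neg (hf : Ext r f L) : Ext r (fun t => - f t) (-L) := ⟨hf.diff.neg, hf.lim.neg⟩

lemma congr (hf : Ext r f L) (h : ∀ t, r < ‖t‖ → g t = f t) : Ext r g L := by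
  refine ⟨hf.diff.congr (fun t ht => h t ht), ?_⟩
  refine hf.lim.congr' ?_
  filter_upwards [eventually_S r] with t ht
  exact (h t ht).symm

lemma continuousOn (hf : Ext r f L) : ContinuousOn f (S r) := hf.diff.continuousOn

lemma continuousAt (hf : Ext r f L) {t : ℂ} (ht : r < ‖t‖) : ContinuousAt f t :=
  hf.continuousOn.continuousAt (S_mem_nhds ht)

lemma differentiableAt (hf : Ext r f L) {t : ℂ} (ht : r < ‖t‖) : DifferentiableAt ℂ f t :=
  hf.diff.differentiableAt (S_mem_nhds ht)

/-- `t ⁻¹` is exterior analytic with limit `0`. -/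
lemma inv_id (hr : 0 ≤ r) : Ext r (fun t => t⁻¹) 0 := by
  refine ⟨?_, ?_⟩
  · intro t ht
    have : t ≠ 0 := by
      intro h0; rw [Set.mem_ofPred_eq, h0, norm_zero] at ht; linarith
    exact (differentiableAt_inv this).differentiableWithinAt
  · exact (tendsto_inv₀_cobounded (α := ℂ))

/-- Limit of `1/(t - a)`. -/
lemma sub_inv {a : ℂ} (hr : ‖a‖ ≤ r) : Ext r (fun t => (t - a)⁻¹) 0 := by
  refine ⟨?_, ?_⟩
  · intro t ht
    have : t - a ≠ 0 := by
      intro h0
      have h1 : t = a := sub_eq_zero.mp h0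
      rw [Set.mem_ofPred_eq, h1] at ht; linarith
    exact ((differentiableAt_id.sub_const a).inv this).differentiableWithinAt
  · have h1 : Tendsto (fun t : ℂ => t - a) (Bornology.cobounded ℂ) (Bornology.cobounded ℂ) := by
      have := (Homeomorph.subRight a).isClosedEmbedding.tendsto_cocompact
      rw [Metric.cobounded_eq_cocompact]
      exact this
    exact (tendsto_inv₀_cobounded (α := ℂ)).comp h1

end Ext

/-! ## Integrals over circles -/

/-- The key contour lemma. -/
lemma circle_inv_eq {r : ℝ} {g : ℂ → ℂ} {L : ℂ} (hr : 0 < r) (h : Ext r g L) {ρ : ℝ} (hρ : r < ρ) :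
    (∮ z in C(0, ρ), z⁻¹ * g z) = 2 * π * I * L := by
  have hρ0 : 0 < ρ := hr.trans hρ
  have hconst : ∀ R, ρ ≤ R → (∮ z in C(0, R), z⁻¹ * g z) = ∮ z in C(0, ρ), z⁻¹ * g z := by
    intro R hR
    have := Complex.circleIntegral_sub_center_inv_smul_eq_of_differentiable_on_annulus_off_countable
      (c := (0:ℂ)) (r := ρ) (R := R) (f := g) (s := ∅) hρ0 hR Set.countable_empty ?_ ?_
    · simpa using this
    · intro z hz
      have hz' : ρ ≤ ‖z‖ := by
        have := hz.2
        simpa [Metric.mem_ball, dist_zero_right] using this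
      exact (h.continuousAt (lt_of_lt_of_le hρ hz')).continuousWithinAt
    · intro z hz
      have hz' : ρ < ‖z‖ := by
        have := hz.1.2
        simpa [Metric.mem_closedBall, dist_zero_right] using this
      exact h.differentiableAt (hρ.trans hz')
  -- The difference with `2π i L` is arbitrarily small.
  have hsmall : ∀ ε : ℝ, 0 < ε → ‖(∮ z in C(0, ρ), z⁻¹ * g z) - 2 * π * I * L‖ ≤ 2 * π * ε := by
    intro ε hε
    have hlim := h.lim
    rw [Metric.tendsto_nhds] at hlim
    have hev : ∀ᶠ t in Bornology.cobounded ℂ, dist (g t) L < ε := hlim ε hε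
    rw [Filter.HasBasis.eventually_iff (Metric.hasBasis_cobounded_compl_closedBall (0:ℂ))] at hev
    obtain ⟨B, -, hB⟩ := hev
    set R := max ρ (B + 1) with hRdef
    have hRρ : ρ ≤ R := le_max_left _ _
    have hRB : B + 1 ≤ R := le_max_right _ _
    have hR0 : 0 < R := lt_of_lt_of_le hρ0 hRρ
    have hcont : ContinuousOn g (Metric.sphere (0:ℂ) R) := by
      intro z hz
      have hz' : ‖z‖ = R := by simpa using hz
      exact (h.continuousAt (by rw [hz']; exact lt_of_lt_of_le hρ hRρ)).continuousWithinAt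
    have hne : ∀ z ∈ Metric.sphere (0:ℂ) R, z ≠ 0 := by
      intro z hz h0
      have hz' : ‖z‖ = R := by simpa using hz
      rw [h0, norm_zero] at hz'; linarith
    have hint1 : CircleIntegrable (fun z => z⁻¹ * g z) 0 R := by
      apply ContinuousOn.circleIntegrable hR0.le
      exact (continuousOn_id.inv₀ hne).mul hcont
    have hint2 : CircleIntegrable (fun z : ℂ => z⁻¹ * L) 0 R := by
      apply ContinuousOn.circleIntegrable hR0.le
      exact (continuousOn_id.inv₀ hne).mul continuousOn_const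
    have hval : (∮ z in C(0, R), z⁻¹ * L) = 2 * π * I * L := by
      have h1 : (∮ z in C(0, R), z⁻¹ * L) = (∮ z in C(0, R), (z - 0)⁻¹) • L := by
        rw [← circleIntegral.integral_smul_const]
        simp
      rw [h1, circleIntegral.integral_sub_center_inv (0:ℂ) hR0.ne', smul_eq_mul]
    have hdiff : (∮ z in C(0, ρ), z⁻¹ * g z) - 2 * π * I * L
        = ∮ z in C(0, R), z⁻¹ * (g z - L) := by
      rw [← hconst R hRρ, ← hval, ← circleIntegral.integral_sub hint1 hint2]
      congr 1; ext z; ring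
    rw [hdiff]
    have hbound : ∀ z ∈ Metric.sphere (0:ℂ) R, ‖z⁻¹ * (g z - L)‖ ≤ ε / R := by
      intro z hz
      have hz' : ‖z‖ = R := by simpa using hz
      have hfar : z ∈ (Metric.closedBall (0:ℂ) B)ᶜ := by
        simp only [Set.mem_compl_iff, Metric.mem_closedBall, dist_zero_right, not_le]
        rw [hz']; linarith
      have h2 : ‖g z - L‖ ≤ ε := by
        have := hB hfar
        rw [dist_eq_norm] at this; exact this.le
      rw [norm_mul, norm_inv, hz', div_eq_inv_mul]
      exact mul_le_mul_of_nonneg_left h2 (inv_nonneg.mpr hR0.le)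
    have := circleIntegral.norm_integral_le_of_norm_le_const hR0.le hbound
    calc _ ≤ 2 * π * R * (ε / R) := this
      _ = 2 * π * ε := by field_simp
  have hzero : ‖(∮ z in C(0, ρ), z⁻¹ * g z) - 2 * π * I * L‖ = 0 := by
    apply le_antisymm _ (norm_nonneg _)
    apply le_of_forall_pos_le_add
    intro ε hε
    have := hsmall (ε / (2 * π)) (by positivity)
    have h3 : 2 * π * (ε / (2 * π)) = ε := by field_simp
    rw [h3] at this
    linarith
  exact sub_eq_zero.mp (norm_eq_zero.mp hzero)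

/-- Contour integrals vanish when `z f(z) → 0`. -/
lemma contour_zero {r : ℝ} {f : ℂ → ℂ} (hr : 0 < r) (h : Ext r (fun z => z * f z) 0) {ρ : ℝ}
    (hρ : r < ρ) : (∮ z in C(0, ρ), f z) = 0 := by
  have h1 := circle_inv_eq hr h hρ
  have hρ0 : ρ ≠ 0 := (hr.trans hρ).ne'
  rw [mul_zero] at h1
  have h2 : (∮ z in C(0, ρ), f z) = ∮ z in C(0, ρ), z⁻¹ * (z * f z) := by
    apply circleIntegral.integral_congr (hr.trans hρ).le
    intro z hz
    have hz' : ‖z‖ = ρ := by simpa using hz
    have hz0 : z ≠ 0 := by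
      intro h0; rw [h0, norm_zero] at hz'; exact hρ0 hz'.symm
    simp only
    field_simp
  rw [h2, h1]

lemma circleMap_zero_one (θ : ℝ) : circleMap (0:ℂ) 1 θ = exp ((θ : ℂ) * I) := by
  simp [circleMap]

/-- Contour integral over the unit circle as an integral in `θ`. -/
lemma circle_one_eq_mean (f : ℂ → ℂ) :
    (∮ z in C(0, (1:ℝ)), z⁻¹ * f z) = 2 * π * I * mean f := by
  rw [circleIntegral, mean]
  have h1 : ∀ θ : ℝ, deriv (circleMap (0:ℂ) 1) θ • ((circleMap (0:ℂ) 1 θ)⁻¹ * f (circleMap 0 1 θ))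
      = I * f (exp ((θ : ℂ) * I)) := by
    intro θ
    rw [deriv_circleMap, circleMap_zero_one, smul_eq_mul]
    have : exp ((θ : ℂ) * I) ≠ 0 := exp_ne_zero _
    field_simp
  simp_rw [h1]
  rw [intervalIntegral.integral_const_mul]
  have hpi : ((2 * π : ℝ) : ℂ) ≠ 0 := by
    exact_mod_cast (by positivity : (2 * π : ℝ) ≠ 0)
  push_cast at hpi ⊢
  field_simp

/-- The mean value theorem for exterior functions. -/
lemma Ext.mean_eq {r : ℝ} {f : ℂ → ℂ} {L : ℂ} (hr : 0 < r) (hr1 : r < 1) (h : Ext r f L) :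
    mean f = L := by
  have h1 := circle_inv_eq hr h hr1
  rw [circle_one_eq_mean] at h1
  have hpi : (2 * π * I : ℂ) ≠ 0 := by
    simp [Real.pi_ne_zero, I_ne_zero]
  exact mul_left_cancel₀ hpi h1

/-! ## Derivatives at infinity, and the chart at `∞` -/

/-- Cauchy estimate: `t f'(t) → 0`. -/
lemma Ext.id_mul_deriv {r : ℝ} {f : ℂ → ℂ} {L : ℂ} (hr : 0 ≤ r) (h : Ext r f L) :
    Ext r (fun t => t * deriv f t) 0 := by
  refine ⟨differentiableOn_id.mul (h.diff.deriv (isOpen_S r)), ?_⟩
  rw [Metric.tendsto_nhds]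
  intro ε hε
  have hlim := h.lim
  rw [Metric.tendsto_nhds] at hlim
  have hev : ∀ᶠ t in Bornology.cobounded ℂ, dist (f t) L < ε / 4 := hlim (ε / 4) (by positivity)
  rw [Filter.HasBasis.eventually_iff (Metric.hasBasis_cobounded_compl_closedBall (0:ℂ))] at hev
  obtain ⟨B, -, hB⟩ := hev
  rw [Filter.HasBasis.eventually_iff (Metric.hasBasis_cobounded_compl_closedBall (0:ℂ))]
  refine ⟨2 * |B| + 2 * r + 2, trivial, ?_⟩
  intro t ht
  simp only [Set.mem_compl_iff, Metric.mem_closedBall, dist_zero_right, not_le] at ht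
  have hB0 := abs_nonneg B
  have ht0 : 0 < ‖t‖ := by linarith
  set ρ := ‖t‖ / 2 with hρdef
  have hρ : 0 < ρ := by positivity
  have hball : ∀ w ∈ Metric.closedBall t ρ, r < ‖w‖ ∧ B < ‖w‖ := by
    intro w hw
    rw [Metric.mem_closedBall, dist_eq_norm] at hw
    have h1 : ‖t‖ - ‖w‖ ≤ ‖t - w‖ := norm_sub_norm_le t w
    have h2 : ‖t - w‖ = ‖w - t‖ := norm_sub_rev t w
    have h3 : ρ ≤ ‖w‖ := by
      have : ‖t‖ = 2 * ρ := by rw [hρdef]; ring
      linarith
    have h4 : |B| + r + 1 < ρ := by rw [hρdef]; linarith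
    have h5 : B ≤ |B| := le_abs_self B
    constructor <;> linarith
  have hdc : DiffContOnCl ℂ (fun z => f z - L) (Metric.ball t ρ) := by
    apply DifferentiableOn.diffContOnCl
    rw [closure_ball t hρ.ne']
    intro w hw
    exact ((h.differentiableAt (hball w hw).1).sub_const L).differentiableWithinAt
  have hest := Complex.norm_deriv_le_of_forall_mem_sphere_norm_le (f := fun z => f z - L) (c := t)
    (R := ρ) (C := ε / 4) hρ hdc (by
      intro w hw
      have hw' := hball w (Metric.sphere_subset_closedBall hw)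
      have hfar : w ∈ (Metric.closedBall (0:ℂ) B)ᶜ := by
        simp only [Set.mem_compl_iff, Metric.mem_closedBall, dist_zero_right, not_le]
        exact hw'.2
      have := hB hfar
      rw [dist_eq_norm] at this; exact this.le)
  have hd : deriv (fun z => f z - L) t = deriv f t := by
    simp
  rw [hd] at hest
  rw [dist_zero_right, norm_mul]
  calc ‖t‖ * ‖deriv f t‖ ≤ ‖t‖ * (ε / 4 / ρ) := mul_le_mul_of_nonneg_left hest (norm_nonneg _)
    _ = ε / 2 := by rw [hρdef]; field_simp; ring
    _ < ε := by linarith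

/-- The chart at infinity: `t (f t - L)` is again exterior analytic. -/
lemma Ext.id_mul_sub {r : ℝ} {f : ℂ → ℂ} {L : ℂ} (hr : 0 < r) (h : Ext r f L) :
    ∃ L', Ext r (fun t => t * (f t - L)) L' := by
  -- the chart
  set F : ℂ → ℂ := Function.update (fun s => f s⁻¹) 0 L with hF
  have hFne : ∀ s, s ≠ 0 → F s = f s⁻¹ := fun s hs => by simp [hF, hs]
  have hF0 : F 0 = L := by simp [hF]
  have hcont : ContinuousAt F 0 := by
    have h0 : ContinuousWithinAt F {0}ᶜ 0 := by
      rw [ContinuousWithinAt, hF0]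
      have h1 : Tendsto (fun s : ℂ => f s⁻¹) (𝓝[≠] 0) (𝓝 L) :=
        h.lim.comp (Filter.tendsto_inv₀_nhdsNE_zero)
      refine h1.congr' ?_
      filter_upwards [self_mem_nhdsWithin] with s hs
      exact (hFne s hs).symm
    exact continuousWithinAt_compl_self.mp h0
  have hdiff : ∀ᶠ s in 𝓝[≠] (0:ℂ), DifferentiableAt ℂ F s := by
    have hball : Metric.ball (0:ℂ) r⁻¹ ∈ 𝓝 (0:ℂ) := Metric.ball_mem_nhds _ (by positivity)
    filter_upwards [nhdsWithin_le_nhds hball, self_mem_nhdsWithin] with s hs hs0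
    have hs0' : s ≠ 0 := hs0
    have hsr : r < ‖s⁻¹‖ := by
      rw [Metric.mem_ball, dist_zero_right] at hs
      rw [norm_inv]
      have hpos : 0 < ‖s‖ := norm_pos_iff.mpr hs0'
      rw [lt_inv_comm₀ hr hpos]
      exact hs
    have h1 : DifferentiableAt ℂ (fun s => f s⁻¹) s :=
      (h.differentiableAt hsr).comp s (differentiableAt_inv hs0')
    refine h1.congr_of_eventuallyEq ?_
    filter_upwards [isOpen_ne.mem_nhds hs0'] with u hu
    exact hFne u hu
  have han := Complex.analyticAt_of_differentiable_on_punctured_nhds_of_continuousAt hdiff hcont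
  have hder := han.differentiableAt.hasDerivAt
  refine ⟨deriv F 0, ?_, ?_⟩
  · exact differentiableOn_id.mul (h.diff.sub_const L)
  · have h2 : Tendsto (fun s => slope F 0 s) (𝓝[≠] 0) (𝓝 (deriv F 0)) := hder.tendsto_slope
    have h3 := h2.comp (Filter.tendsto_inv₀_cobounded' (α := ℂ))
    refine h3.congr' ?_
    filter_upwards [eventually_S 0] with t ht
    have ht0 : t ≠ 0 := by
      intro h0
      rw [h0, norm_zero] at ht
      exact lt_irrefl _ ht
    have ht' : t⁻¹ ≠ 0 := inv_ne_zero ht0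
    simp only [Function.comp, slope_def_field, hF0, sub_zero, hFne _ ht', inv_inv]
    field_simp

end Crest.Agent.CrouzeixT
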