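import Crest.Agent.CrouzeixT.ExtBasic

/-!
# Faber polynomials for an exterior map.

`G = c t + g`, with `g` exterior analytic. For every `j`, there is a polynomial `F` with
`F (G t) - t ^ j` exterior analytic vanishing at infinity.
-/

open Complex Filter Metric Set Topology
open scoped Real ComplexConjugate

noncomputable section

namespace Crest.Agent.CrouzeixT

variable {r : ℝ} {G : ℂ → ℂ} {c c0 : ℂ}

/-- `u` is a polynomial of `G` modulo exterior functions. -/
def PolyClass (r : ℝ) (G : ℂ → ℂ) (u : ℂ → ℂ) : Prop :=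
  ∃ (Q : Polynomial ℂ) (e : ℂ → ℂ) (L : ℂ), Ext r e L ∧ ∀ t, r < ‖t‖ → u t = Q.eval (G t) + e t

lemma PolyClass.add {u v : ℂ → ℂ} (hu : PolyClass r G u) (hv : PolyClass r G v) :
    PolyClass r G (fun t => u t + v t) := by
  obtain ⟨Q, e, L, he, hQ⟩ := hu
  obtain ⟨Q', e', L', he', hQ'⟩ := hv
  refine ⟨Q + Q', fun t => e t + e' t, L + L', he.add he', fun t ht => ?_⟩
  show u t + v t = _ + (e t + e' t)
  rw [hQ t ht, hQ' t ht, Polynomial.eval_add]; ring

lemma PolyClass.const_mul {u : ℂ → ℂ} (a : ℂ) (hu : PolyClass r G u) :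
    PolyClass r G (fun t => a * u t) := by
  obtain ⟨Q, e, L, he, hQ⟩ := hu
  refine ⟨Polynomial.C a * Q, fun t => a * e t, a * L, he.const_mul a, fun t ht => ?_⟩
  show a * u t = _ + a * e t
  rw [hQ t ht, Polynomial.eval_mul, Polynomial.eval_C]; ring

lemma PolyClass.of_ext {e : ℂ → ℂ} {L : ℂ} (he : Ext r e L) : PolyClass r G e :=
  ⟨0, e, L, he, fun t _ => by simp⟩

lemma PolyClass.congr {u v : ℂ → ℂ} (hu : PolyClass r G u) (h : ∀ t, r < ‖t‖ → v t = u t) :
    PolyClass r G v := by
  obtain ⟨Q, e, L, he, hQ⟩ := hu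
  exact ⟨Q, e, L, he, fun t ht => by rw [h t ht, hQ t ht]⟩

section

variable (hr : 0 < r) (hGd : DifferentiableOn ℂ G (S r)) (hc : c ≠ 0)
  (hg : Ext r (fun t => G t - c * t) c0)

include hr hg in
/-- `e * G ^ k` is in the class, for exterior `e`. -/
lemma ext_mul_pow_mem (k : ℕ) : ∀ {e : ℂ → ℂ} {L : ℂ}, Ext r e L →
    PolyClass r G (fun t => e t * G t ^ k) := by
  induction k with
  | zero =>
    intro e L he
    exact (PolyClass.of_ext he).congr (fun t _ => by simp)
  | succ k ih =>
    intro e L he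
    -- `e G = L G + e''` with `e'' = c t (e - L) + (e - L) g`
    obtain ⟨L', hL'⟩ := he.id_mul_sub hr
    have he2 : Ext r (fun t => c * (t * (e t - L)) + (e t - L) * (G t - c * t))
        (c * L' + (L - L) * c0) :=
      (hL'.const_mul c).add ((he.sub (Ext.const L)).mul hg)
    have h1 := ih he2
    obtain ⟨Q, e₂, L₂, he₂, hQ⟩ := h1
    refine ⟨Polynomial.C L * Polynomial.X ^ (k + 1) + Q, e₂, L₂, he₂, fun t ht => ?_⟩
    have := hQ t ht
    simp only [Polynomial.eval_add, Polynomial.eval_mul, Polynomial.eval_C, Polynomial.eval_pow,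
      Polynomial.eval_X]
    rw [add_assoc, ← this]
    ring

include hr hc hg in
/-- `t * G ^ k` is in the class. -/
lemma id_mul_pow_mem (k : ℕ) : PolyClass r G (fun t => t * G t ^ k) := by
  have h1 := (ext_mul_pow_mem hr hg k hg).const_mul (-c⁻¹)
  have h2 : PolyClass r G (fun t => c⁻¹ * G t ^ (k + 1)) :=
    ⟨Polynomial.C c⁻¹ * Polynomial.X ^ (k + 1), fun _ => 0, 0, Ext.const 0, fun t _ => by simp⟩
  refine (h2.add h1).congr (fun t _ => ?_)
  field_simp
  ring

include hr hc hg in
/-- `t * Q(G)` is in the class. -/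
lemma id_mul_poly_mem (Q : Polynomial ℂ) : PolyClass r G (fun t => t * Q.eval (G t)) := by
  induction Q using Polynomial.induction_on' with
  | add p q hp hq =>
    refine (hp.add hq).congr (fun t _ => ?_)
    rw [Polynomial.eval_add]; ring
  | monomial n a =>
    refine ((id_mul_pow_mem hr hc hg n).const_mul a).congr (fun t _ => ?_)
    rw [Polynomial.eval_monomial]; ring

include hr hc hg in
/-- `t ^ j` is in the class. -/
lemma id_pow_mem (j : ℕ) : PolyClass r G (fun t => t ^ j) := by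
  induction j with
  | zero =>
    exact ⟨1, fun _ => 0, 0, Ext.const 0, fun t _ => by simp⟩
  | succ j ih =>
    obtain ⟨Q, e, L, he, hQ⟩ := ih
    obtain ⟨L', hL'⟩ := he.id_mul_sub hr
    have h1 := id_mul_poly_mem hr hc hg Q
    have h2 : PolyClass r G (fun t => t) :=
      (id_mul_pow_mem hr hc hg 0).congr (fun t _ => by simp)
    have h3 := (h1.add (h2.const_mul L)).add (PolyClass.of_ext hL')
    refine h3.congr (fun t ht => ?_)
    have h4 : t ^ j = Q.eval (G t) + e t := hQ t ht
    rw [pow_succ, h4]; ring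

include hr hc hg in
/-- Faber polynomials. -/
theorem exists_faber (j : ℕ) : ∃ (F : Polynomial ℂ) (φ : ℂ → ℂ), Ext r φ 0 ∧
    ∀ t, r < ‖t‖ → F.eval (G t) = t ^ j + φ t := by
  obtain ⟨Q, e, L, he, hQ⟩ := id_pow_mem hr hc hg j
  refine ⟨Q + Polynomial.C L, fun t => L - e t, ?_, fun t ht => ?_⟩
  · have := (Ext.const (r := r) L).sub he
    simpa using this
  · have h4 : t ^ j = Q.eval (G t) + e t := hQ t ht
    show _ = t ^ j + (L - e t)
    rw [Polynomial.eval_add, Polynomial.eval_C, h4]; ring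

end

/-- Faber polynomial, chosen. -/
def faber (hr : 0 < r) (hc : c ≠ 0) (hg : Ext r (fun t => G t - c * t) c0) (j : ℕ) :
    Polynomial ℂ := (exists_faber hr hc hg j).choose

/-- Exterior part of the Faber polynomial. -/
def faberExt (hr : 0 < r) (hc : c ≠ 0) (hg : Ext r (fun t => G t - c * t) c0) (j : ℕ) :
    ℂ → ℂ := (exists_faber hr hc hg j).choose_spec.choose

lemma faberExt_ext (hr : 0 < r) (hc : c ≠ 0) (hg : Ext r (fun t => G t - c * t) c0) (j : ℕ) :
    Ext r (faberExt hr hc hg j) 0 := (exists_faber hr hc hg j).choose_spec.choose_spec.1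

lemma faber_eval (hr : 0 < r) (hc : c ≠ 0) (hg : Ext r (fun t => G t - c * t) c0) (j : ℕ)
    {t : ℂ} (ht : r < ‖t‖) :
    (faber hr hc hg j).eval (G t) = t ^ j + faberExt hr hc hg j t :=
  (exists_faber hr hc hg j).choose_spec.choose_spec.2 t ht

end Crest.Agent.CrouzeixT
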