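import Crest.Agent.CrouzeixT.Faber

/-!
# The double layer kernel in the `t` plane.
-/

open Complex Filter Metric Set Topology
open scoped Real ComplexConjugate

noncomputable section

namespace Crest.Agent.CrouzeixT

variable {K : Set ℂ} {G : ℂ → ℂ} {r : ℝ} {c c0 : ℂ}

/-- Divided difference `Y(τ) = (G τ - G t₀) / (τ - t₀)`. -/
def Y (G : ℂ → ℂ) (t₀ : ℂ) : ℂ → ℂ := dslope G t₀

lemma Y_eq {t₀ τ : ℂ} (h : τ ≠ t₀) : Y G t₀ τ = (G τ - G t₀) / (τ - t₀) := by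
  simp only [Y, dslope_of_ne _ h, slope_def_field]

lemma sub_eq_mul_Y (t₀ τ : ℂ) : G τ - G t₀ = (τ - t₀) * Y G t₀ τ := by
  have := sub_smul_dslope G t₀ τ
  simpa [Y] using this.symm

/-- The function `R(τ) = τ Y'(τ) / Y(τ)`. -/
def RR (G : ℂ → ℂ) (t₀ : ℂ) (τ : ℂ) : ℂ := τ * deriv (Y G t₀) τ / Y G t₀ τ

namespace ConvexExtMap

variable (hG : ConvexExtMap K G r c c0)

include hG

lemma gExt : Ext r (fun t => G t - c * t) c0 := by
  refine ⟨hG.diff.sub ?_, hG.lim⟩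
  exact (differentiableOn_const c).mul differentiableOn_id

lemma Y_ext {t₀ : ℂ} (ht₀ : r < ‖t₀‖) : Ext r (Y G t₀) c := by
  refine ⟨(Complex.differentiableOn_dslope (S_mem_nhds ht₀)).2 hG.diff, ?_⟩
  -- `Y = c + (g τ + c t₀ - G t₀) / (τ - t₀)` eventually
  have h1 : Ext ‖t₀‖ (fun τ => (τ - t₀)⁻¹) 0 := Ext.sub_inv le_rfl
  have h2 : Tendsto (fun τ => c + (G τ - c * τ + (c * t₀ - G t₀)) * (τ - t₀)⁻¹)
      (Bornology.cobounded ℂ) (𝓝 (c + (c0 + (c * t₀ - G t₀)) * 0)) :=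
    tendsto_const_nhds.add ((hG.lim.add tendsto_const_nhds).mul h1.lim)
  have h3 : c + (c0 + (c * t₀ - G t₀)) * 0 = c := by ring
  rw [h3] at h2
  refine h2.congr' ?_
  filter_upwards [eventually_S ‖t₀‖] with τ hτ
  have hne : τ ≠ t₀ := by
    intro h; rw [h] at hτ; exact lt_irrefl _ hτ
  have hne' : τ - t₀ ≠ 0 := sub_ne_zero.mpr hne
  rw [Y_eq hne]
  field_simp
  ring

lemma Y_ne {t₀ τ : ℂ} (ht₀ : r < ‖t₀‖) (hτ : r < ‖τ‖) : Y G t₀ τ ≠ 0 := by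
  by_cases h : τ = t₀
  · subst h
    simp only [Y, dslope_same]
    exact hG.deriv_ne _ ht₀
  · rw [Y_eq h]
    refine div_ne_zero ?_ (sub_ne_zero.mpr h)
    intro h1
    exact h (hG.inj hτ ht₀ (sub_eq_zero.mp h1))

lemma RR_ext {t₀ : ℂ} (ht₀ : r < ‖t₀‖) : Ext r (RR G t₀) 0 := by
  have hY := hG.Y_ext ht₀
  have hd := hY.id_mul_deriv hG.r0_pos.le
  refine ⟨hd.diff.div hY.diff (fun τ hτ => hG.Y_ne ht₀ hτ), ?_⟩
  have := hd.lim.div hY.lim hG.c_ne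
  rw [zero_div] at this
  exact this.congr (fun τ => rfl)

/-- Derivative of the divided difference. -/
lemma deriv_G_eq {t₀ τ : ℂ} (ht₀ : r < ‖t₀‖) (hτ : r < ‖τ‖) :
    deriv G τ = Y G t₀ τ + (τ - t₀) * deriv (Y G t₀) τ := by
  have hY := (hG.Y_ext ht₀).differentiableAt hτ
  have h1 : G = fun z => G t₀ + (z - t₀) * Y G t₀ z := by
    funext z
    have := sub_eq_mul_Y (G := G) t₀ z
    linear_combination this
  have h2 : HasDerivAt (fun z => G t₀ + (z - t₀) * Y G t₀ z)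
      (1 * Y G t₀ τ + (τ - t₀) * deriv (Y G t₀) τ) τ :=
    ((((hasDerivAt_id τ).sub_const t₀).mul hY.hasDerivAt).const_add (G t₀))
  have h3 : HasDerivAt G (1 * Y G t₀ τ + (τ - t₀) * deriv (Y G t₀) τ) τ :=
    h2.congr_of_eventuallyEq (Eventually.of_forall (fun z => congrFun h1 z))
  rw [h3.deriv]
  ring

lemma log_deriv_eq {t₀ τ : ℂ} (ht₀ : r < ‖t₀‖) (hτ : r < ‖τ‖) (hne : τ ≠ t₀) :
    τ * deriv G τ / (G τ - G t₀) = τ / (τ - t₀) + RR G t₀ τ := by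
  have hY := hG.Y_ne ht₀ hτ
  have hne' : τ - t₀ ≠ 0 := sub_ne_zero.mpr hne
  rw [hG.deriv_G_eq ht₀ hτ, sub_eq_mul_Y (G := G) t₀ τ, RR]
  field_simp

omit hG in
lemma re_div_sub {t₀ τ : ℂ} (ht₀ : ‖t₀‖ = 1) (hτ : ‖τ‖ = 1) (hne : τ ≠ t₀) :
    (τ / (τ - t₀)).re = 1 / 2 := by
  have hne' : τ - t₀ ≠ 0 := sub_ne_zero.mpr hne
  have h1 : normSq τ = 1 := by rw [normSq_eq_norm_sq, hτ]; norm_num
  have h2 : normSq t₀ = 1 := by rw [normSq_eq_norm_sq, ht₀]; norm_num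
  have h3 : normSq (τ - t₀) ≠ 0 := by
    rw [Ne, normSq_eq_zero]; exact hne'
  rw [Complex.div_re, ← add_div]
  have hN : τ.re * (τ - t₀).re + τ.im * (τ - t₀).im = normSq (τ - t₀) / 2 := by
    rw [normSq_apply] at h1 h2 ⊢
    simp only [sub_re, sub_im]
    linear_combination (1 / 2) * h1 - (1 / 2) * h2
  rw [hN]
  field_simp

/-- Positivity of the kernel off the diagonal. -/
lemma half_add_re_RR_nonneg_of_ne {t₀ τ : ℂ} (ht₀ : ‖t₀‖ = 1) (hτ : ‖τ‖ = 1) (hne : τ ≠ t₀) :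
    0 ≤ 1 / 2 + (RR G t₀ τ).re := by
  have hr1 : r < 1 := hG.r0_lt
  have h1 := hG.log_deriv_eq (by rw [ht₀]; exact hr1) (by rw [hτ]; exact hr1) hne
  have h2 := hG.supp_curve τ t₀ hτ ht₀
  have h3 : (τ * deriv G τ / (G τ - G t₀)).re = (τ / (τ - t₀)).re + (RR G t₀ τ).re := by
    rw [h1, add_re]
  rw [re_div_sub ht₀ hτ hne] at h3
  rw [← h3]
  -- `Re (w / z) ≥ 0` from `Re (conj w * z) ≥ 0`.
  rw [Complex.div_re]
  have h4 : ∀ w z : ℂ, ((starRingEnd ℂ) w * z).re = w.re * z.re + w.im * z.im := by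
    intro w z; simp [Complex.mul_re]
  rw [h4] at h2
  have h5 := normSq_nonneg (G τ - G t₀)
  have h6 : (τ * deriv G τ).re * (G τ - G t₀).re / normSq (G τ - G t₀)
      + (τ * deriv G τ).im * (G τ - G t₀).im / normSq (G τ - G t₀)
      = ((τ * deriv G τ).re * (G τ - G t₀).re + (τ * deriv G τ).im * (G τ - G t₀).im)
        / normSq (G τ - G t₀) := by ring
  rw [h6]
  exact div_nonneg h2 h5

/-- Positivity of the kernel, everywhere on the circle. -/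
lemma half_add_re_RR_nonneg {t₀ τ : ℂ} (ht₀ : ‖t₀‖ = 1) (hτ : ‖τ‖ = 1) :
    0 ≤ 1 / 2 + (RR G t₀ τ).re := by
  by_cases hne : τ = t₀
  swap
  · exact hG.half_add_re_RR_nonneg_of_ne ht₀ hτ hne
  subst hne
  have hr1 : r < 1 := hG.r0_lt
  have hR := hG.RR_ext (t₀ := τ) (by rw [ht₀]; exact hr1)
  have hcont := hR.continuousAt (t := τ) (by rw [ht₀]; exact hr1)
  -- approach along `τ_n = τ e^{i/(n+1)}`
  set a : ℕ → ℂ := fun n => τ * exp (((1 / ((n : ℝ) + 1) : ℝ) : ℂ) * I) with ha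
  have ha_lim : Tendsto a atTop (𝓝 τ) := by
    have h1 : Tendsto (fun n : ℕ => (1 / ((n : ℝ) + 1) : ℝ)) atTop (𝓝 0) :=
      tendsto_one_div_add_atTop_nhds_zero_nat
    have h2 : Tendsto (fun n : ℕ => exp (((1 / ((n : ℝ) + 1) : ℝ) : ℂ) * I)) atTop
        (𝓝 (exp (((0 : ℝ) : ℂ) * I))) := by
      have hc : Continuous fun x : ℝ => exp ((x : ℂ) * I) := by fun_prop
      exact (hc.tendsto 0).comp h1
    have h3 := (tendsto_const_nhds (x := τ)).mul h2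
    simpa [ha] using h3
  have hnorm : ∀ n, ‖a n‖ = 1 := by
    intro n
    rw [ha]
    simp only [norm_mul, ht₀, norm_exp_ofReal_mul_I, mul_one]
  have hne : ∀ n, a n ≠ τ := by
    intro n h
    have hτ0 : τ ≠ 0 := by
      intro h0; rw [h0, norm_zero] at ht₀; exact zero_ne_one ht₀
    have h1 : exp (((1 / ((n : ℝ) + 1) : ℝ) : ℂ) * I) = 1 := by
      have : τ * exp (((1 / ((n : ℝ) + 1) : ℝ) : ℂ) * I) = τ * 1 := by
        rw [mul_one]; exact h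
      exact mul_left_cancel₀ hτ0 this
    rw [Complex.exp_eq_one_iff] at h1
    obtain ⟨k, hk⟩ := h1
    have hI : (I : ℂ) ≠ 0 := I_ne_zero
    have h2 : ((1 / ((n : ℝ) + 1) : ℝ) : ℂ) = (k : ℂ) * (2 * π) := by
      have : ((1 / ((n : ℝ) + 1) : ℝ) : ℂ) * I = ((k : ℂ) * (2 * π)) * I := by
        rw [hk]; ring
      exact mul_right_cancel₀ hI this
    have h3 : (1 / ((n : ℝ) + 1) : ℝ) = (k : ℝ) * (2 * π) := by
      exact_mod_cast h2
    have hn0 : (0:ℝ) < (n : ℝ) + 1 := by positivity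
    have h4 : 0 < (1 / ((n : ℝ) + 1) : ℝ) := by positivity
    have h5 : (1 / ((n : ℝ) + 1) : ℝ) ≤ 1 := by
      rw [div_le_one hn0]; linarith [(Nat.cast_nonneg n : (0:ℝ) ≤ n)]
    have hpi := Real.pi_gt_three
    have hk1 : (0:ℝ) < k := by
      by_contra hcon
      push Not at hcon
      have : (k : ℝ) * (2 * π) ≤ 0 := mul_nonpos_of_nonpos_of_nonneg hcon (by positivity)
      linarith
    have hk2 : (1:ℝ) ≤ k := by
      have : (0:ℤ) < k := by exact_mod_cast hk1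
      have h6 : (1:ℤ) ≤ k := this
      exact_mod_cast h6
    nlinarith
  have h1 : Tendsto (fun n => 1 / 2 + (RR G τ (a n)).re) atTop (𝓝 (1 / 2 + (RR G τ τ).re)) := by
    refine tendsto_const_nhds.add ?_
    exact (continuous_re.tendsto _).comp (hcont.tendsto.comp ha_lim)
  exact ge_of_tendsto' h1 (fun n => hG.half_add_re_RR_nonneg_of_ne ht₀ (hnorm n) (hne n))

end ConvexExtMap

end Crest.Agent.CrouzeixT
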