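import Mathlib

/-!
# Riemann mapping for bounded star-shaped open sets (Koebe's proof)

`exists_riemann_map`: every bounded open set `U` star-shaped about `0 ∈ U` admits a biholomorphism
onto the open unit disc fixing `0` (with nowhere-vanishing derivative).

The normal-family argument is run along an ultrafilter on `ℕ`, which avoids Arzelà–Ascoli.
-/

open Complex Filter Metric Set Topology
open scoped ComplexConjugate

namespace Crest.Agent.CrouzeixT
namespace RMT

variable {U : Set ℂ}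

/-- The Koebe family. -/
structure Fam (U : Set ℂ) (f : ℂ → ℂ) : Prop where
  diff : DifferentiableOn ℂ f U
  inj : InjOn f U
  maps : MapsTo f U (ball 0 1)
  zero : f 0 = 0

/-! ### Möbius maps of the disc -/

/-- The Möbius automorphism of the disc sending `a` to `0`. -/
noncomputable def mob (a w : ℂ) : ℂ := (w - a) / (1 - conj a * w)

lemma mob_denom_ne {a w : ℂ} (ha : ‖a‖ < 1) (hw : ‖w‖ < 1) : 1 - conj a * w ≠ 0 := by
  intro h
  have h1 : conj a * w = 1 := by linear_combination -h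
  have h2 : ‖conj a * w‖ = 1 := by rw [h1]; simp
  rw [norm_mul, RCLike.norm_conj] at h2
  have : ‖a‖ * ‖w‖ < 1 := by
    have := mul_lt_mul'' ha hw (norm_nonneg _) (norm_nonneg _)
    simpa using this
  linarith

lemma norm_mob_lt {a w : ℂ} (ha : ‖a‖ < 1) (hw : ‖w‖ < 1) : ‖mob a w‖ < 1 := by
  have hd := mob_denom_ne ha hw
  have hdn : 0 < ‖1 - conj a * w‖ := norm_pos_iff.mpr hd
  rw [mob, norm_div, div_lt_one hdn]
  have h2 : ‖w - a‖ ^ 2 < ‖1 - conj a * w‖ ^ 2 := by
    have e1 : ‖w - a‖ ^ 2 = normSq (w - a) := by rw [Complex.normSq_eq_norm_sq]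
    have e2 : ‖1 - conj a * w‖ ^ 2 = normSq (1 - conj a * w) := by rw [Complex.normSq_eq_norm_sq]
    rw [e1, e2]
    have ha2 : a.re * a.re + a.im * a.im < 1 := by
      have := Complex.normSq_apply a
      have h3 : normSq a = ‖a‖ ^ 2 := Complex.normSq_eq_norm_sq a
      have h4 : ‖a‖ ^ 2 < 1 := by nlinarith [norm_nonneg a]
      nlinarith
    have hw2 : w.re * w.re + w.im * w.im < 1 := by
      have := Complex.normSq_apply w
      have h3 : normSq w = ‖w‖ ^ 2 := Complex.normSq_eq_norm_sq w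
      have h4 : ‖w‖ ^ 2 < 1 := by nlinarith [norm_nonneg w]
      nlinarith
    simp only [Complex.normSq_apply, Complex.sub_re, Complex.sub_im, Complex.mul_re, Complex.mul_im,
      Complex.one_re, Complex.one_im, Complex.conj_re, Complex.conj_im]
    nlinarith [mul_pos (sub_pos.mpr ha2) (sub_pos.mpr hw2)]
  exact lt_of_pow_lt_pow_left₀ 2 (norm_nonneg _) h2

lemma mob_neg_mob {a w : ℂ} (ha : ‖a‖ < 1) (hw : ‖w‖ < 1) : mob (-a) (mob a w) = w := by
  have hd := mob_denom_ne ha hw
  have hnum : (1 : ℂ) - conj a * a ≠ 0 := mob_denom_ne ha ha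
  unfold mob
  simp only [map_neg]
  generalize conj a = c at *
  have h1 : (w - a) / (1 - c * w) - -a = w * (1 - c * a) / (1 - c * w) := by
    rw [eq_div_iff hd, sub_mul, div_mul_cancel₀ _ hd]
    ring
  have h2 : 1 - -c * ((w - a) / (1 - c * w)) = (1 - c * a) / (1 - c * w) := by
    rw [eq_div_iff hd, sub_mul, mul_assoc, div_mul_cancel₀ _ hd]
    ring
  rw [h1, h2, div_div_div_cancel_right₀ hd, mul_div_assoc, div_self hnum, mul_one]

lemma mob_injOn {a : ℂ} (ha : ‖a‖ < 1) : InjOn (mob a) (ball 0 1) := by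
  intro x hx y hy h
  have hx' : ‖x‖ < 1 := by simpa using hx
  have hy' : ‖y‖ < 1 := by simpa using hy
  rw [← mob_neg_mob ha hx', ← mob_neg_mob ha hy', h]

lemma mob_self {a : ℂ} : mob a a = 0 := by simp [mob]

lemma mob_zero (a : ℂ) : mob a 0 = -a := by simp [mob]

lemma hasDerivAt_mob {a w : ℂ} (ha : ‖a‖ < 1) (hw : ‖w‖ < 1) :
    HasDerivAt (mob a) ((1 - conj a * a) / (1 - conj a * w) ^ 2) w := by
  have hd := mob_denom_ne ha hw
  have h1 : HasDerivAt (fun z : ℂ => z - a) 1 w := (hasDerivAt_id w).sub_const a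
  have h2 : HasDerivAt (fun z : ℂ => 1 - conj a * z) (-(conj a)) w := by
    simpa using ((hasDerivAt_id w).const_mul (conj a)).const_sub 1
  have h3 := h1.div h2 hd
  have e : (1 * (1 - conj a * w) - (w - a) * -conj a) / (1 - conj a * w) ^ 2
      = (1 - conj a * a) / (1 - conj a * w) ^ 2 := by
    congr 1
    ring
  rw [e] at h3
  exact h3

lemma differentiableAt_mob {a w : ℂ} (ha : ‖a‖ < 1) (hw : ‖w‖ < 1) :
    DifferentiableAt ℂ (mob a) w := (hasDerivAt_mob ha hw).differentiableAt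

/-! ### Hurwitz -/

/-- Hurwitz for injectivity, via the maximum principle applied to `1/(F_n - F_n z₂)`. -/
lemma hurwitz_inj (hU : IsOpen U) (hc : IsPreconnected U) {ι : Type*} {F : ι → ℂ → ℂ} {f : ℂ → ℂ}
    {p : Filter ι} [p.NeBot] (hF : ∀ n, DifferentiableOn ℂ (F n) U) (hinj : ∀ n, InjOn (F n) U)
    (hloc : TendstoLocallyUniformlyOn F f p U) (hf : DifferentiableOn ℂ f U)
    (hnc : ¬ ∃ c, EqOn f (fun _ => c) U) : InjOn f U := by
  intro z1 hz1 z2 hz2 heq
  by_contra hne
  set g : ℂ → ℂ := fun z => f z - f z2 with hg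
  have hgd : DifferentiableOn ℂ g U := hf.sub_const _
  have hga : AnalyticOnNhd ℂ g U := hgd.analyticOnNhd hU
  have hgz1 : g z1 = 0 := by simp [hg, heq]
  have hiso : ∀ᶠ z in 𝓝[≠] z1, g z ≠ 0 := by
    rcases (hga z1 hz1).eventually_eq_zero_or_eventually_ne_zero with h | h
    · exfalso
      apply hnc
      refine ⟨f z2, fun z hz => ?_⟩
      have := hga.eqOn_zero_of_preconnected_of_eventuallyEq_zero hc hz1 h hz
      simpa [hg, sub_eq_zero] using this
    · exact h
  -- choose the radius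
  obtain ⟨r0, hr0, hr0U⟩ := Metric.isOpen_iff.mp hU z1 hz1
  rw [eventually_nhdsWithin_iff, Metric.eventually_nhds_iff_ball] at hiso
  obtain ⟨r1, hr1, hr1g⟩ := hiso
  have hd12 : 0 < dist z1 z2 := dist_pos.mpr hne
  set r : ℝ := min (min r0 r1) (dist z1 z2) / 2 with hr
  have hrpos : 0 < r := by
    have : 0 < min (min r0 r1) (dist z1 z2) := lt_min (lt_min hr0 hr1) hd12
    positivity
  have hr_lt0 : r < r0 := by
    have : min (min r0 r1) (dist z1 z2) ≤ r0 := (min_le_left _ _).trans (min_le_left _ _)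
    have h3 : 0 < min (min r0 r1) (dist z1 z2) := lt_min (lt_min hr0 hr1) hd12
    simp only [hr]; linarith
  have hr_lt1 : r < r1 := by
    have : min (min r0 r1) (dist z1 z2) ≤ r1 := (min_le_left _ _).trans (min_le_right _ _)
    have h3 : 0 < min (min r0 r1) (dist z1 z2) := lt_min (lt_min hr0 hr1) hd12
    simp only [hr]; linarith
  have hr_lt2 : r < dist z1 z2 := by
    have : min (min r0 r1) (dist z1 z2) ≤ dist z1 z2 := min_le_right _ _
    have h3 : 0 < min (min r0 r1) (dist z1 z2) := lt_min (lt_min hr0 hr1) hd12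
    simp only [hr]; linarith
  have hcb : closedBall z1 r ⊆ U := (closedBall_subset_ball hr_lt0).trans hr0U
  have hz2cb : z2 ∉ closedBall z1 r := by
    intro h
    have h1 : dist z2 z1 ≤ r := h
    rw [dist_comm] at h1
    linarith
  have hsph : IsCompact (sphere z1 r) := isCompact_sphere z1 r
  have hsphU : sphere z1 r ⊆ U := sphere_subset_closedBall.trans hcb
  have hsne : (sphere z1 r).Nonempty := NormedSpace.sphere_nonempty.mpr hrpos.le
  have hgcont : ContinuousOn (fun z => ‖g z‖) (sphere z1 r) :=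
    (hgd.continuousOn.mono hsphU).norm
  obtain ⟨z0, hz0, hmin⟩ := hsph.exists_isMinOn hsne hgcont
  have hg0ne : g z0 ≠ 0 := by
    apply hr1g z0
    · rw [mem_sphere] at hz0
      rw [mem_ball, hz0]
      exact hr_lt1
    · rintro rfl
      rw [mem_sphere, dist_self] at hz0
      exact hrpos.ne hz0
  set δ : ℝ := ‖g z0‖ with hδ
  have hδpos : 0 < δ := norm_pos_iff.mpr hg0ne
  have hgδ : ∀ z ∈ sphere z1 r, δ ≤ ‖g z‖ := fun z hz => hmin hz
  -- uniform convergence on the sphere
  have hunif : TendstoUniformlyOn F f p (sphere z1 r) :=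
    (tendstoLocallyUniformlyOn_iff_forall_isCompact hU).mp hloc _ hsphU hsph
  have e1 : ∀ᶠ n in p, ∀ z ∈ sphere z1 r, dist (f z) (F n z) < δ / 4 :=
    (Metric.tendstoUniformlyOn_iff.mp hunif) _ (by positivity)
  have e2 : ∀ᶠ n in p, dist (f z2) (F n z2) < δ / 4 := by
    have := (hloc.tendsto_at hz2)
    have := (Metric.tendsto_nhds.mp this) _ (show 0 < δ / 4 by positivity)
    simpa [dist_comm] using this
  have e3 : ∀ᶠ n in p, dist (f z1) (F n z1) < δ / 4 := by
    have := (hloc.tendsto_at hz1)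
    have := (Metric.tendsto_nhds.mp this) _ (show 0 < δ / 4 by positivity)
    simpa [dist_comm] using this
  obtain ⟨n, h1, h2, h3⟩ := (e1.and (e2.and e3)).exists
  -- the function 1/(F n - F n z2)
  set k : ℂ → ℂ := fun z => (F n z - F n z2)⁻¹ with hk
  have hkd : DifferentiableOn ℂ k (U \ {z2}) := by
    apply DifferentiableOn.inv
    · exact ((hF n).mono sdiff_subset).sub_const _
    · intro z hz
      rw [sub_ne_zero]
      intro h
      exact hz.2 (hinj n hz.1 hz2 h)
  have hcb' : closedBall z1 r ⊆ U \ {z2} := fun z hz => ⟨hcb hz, fun h => hz2cb (h ▸ hz)⟩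
  have hkc : DiffContOnCl ℂ k (ball z1 r) := hkd.diffContOnCl_ball hcb'
  have hsph_le : ∀ z ∈ frontier (ball z1 r), ‖k z‖ ≤ 2 / δ := by
    intro z hz
    rw [frontier_ball z1 hrpos.ne'] at hz
    have hg1 := hgδ z hz
    have h4 := h1 z hz
    have h5 : δ / 2 ≤ ‖F n z - F n z2‖ := by
      have e : g z = (F n z - F n z2) + (f z - F n z) - (f z2 - F n z2) := by
        simp only [hg]; ring
      have : ‖g z‖ ≤ ‖F n z - F n z2‖ + ‖f z - F n z‖ + ‖f z2 - F n z2‖ := by
        rw [e]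
        exact (norm_sub_le _ _).trans (add_le_add_left (norm_add_le _ _) _)
      rw [dist_eq_norm] at h4 h2
      linarith
    simp only [hk, norm_inv]
    rw [inv_le_comm₀ (lt_of_lt_of_le (by positivity) h5) (by positivity)]
    rw [inv_div]
    exact h5
  have hmem : z1 ∈ closure (ball z1 r) := subset_closure (mem_ball_self hrpos)
  have hbd := Complex.norm_le_of_forall_mem_frontier_norm_le isBounded_ball hkc hsph_le hmem
  have h6 : ‖F n z1 - F n z2‖ < δ / 2 := by
    have hz : f z1 - f z2 = 0 := by rw [heq]; ring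
    have e' : F n z1 - F n z2 = -(f z1 - F n z1) + (f z2 - F n z2) := by
      linear_combination hz
    rw [e']
    rw [dist_eq_norm] at h2 h3
    calc ‖-(f z1 - F n z1) + (f z2 - F n z2)‖
        ≤ ‖-(f z1 - F n z1)‖ + ‖f z2 - F n z2‖ := norm_add_le _ _
      _ = ‖f z1 - F n z1‖ + ‖f z2 - F n z2‖ := by rw [norm_neg]
      _ < δ / 2 := by linarith
  have hne' : F n z1 - F n z2 ≠ 0 := by
    rw [sub_ne_zero]
    intro h
    exact hne (hinj n hz1 hz2 h)
  have h7 : 0 < ‖F n z1 - F n z2‖ := norm_pos_iff.mpr hne'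
  simp only [hk, norm_inv] at hbd
  rw [inv_le_comm₀ h7 (by positivity), inv_div] at hbd
  linarith

/-! ### The extremal function -/

lemma Fam.dist_le {f : ℂ → ℂ} (hf : Fam U f) {x y : ℂ} {δ : ℝ} (hδ : 0 < δ) (hb : ball x δ ⊆ U)
    (hy : y ∈ ball x δ) : dist (f y) (f x) ≤ 2 / δ * dist y x := by
  refine Complex.dist_le_div_mul_dist_of_mapsTo_ball (hf.diff.mono hb) ?_ hy
  intro w hw
  have h1 : ‖f w‖ < 1 := by simpa using hf.maps (hb hw)
  have h2 : ‖f x‖ < 1 := by simpa using hf.maps (hb (mem_ball_self hδ))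
  rw [mem_closedBall, dist_eq_norm]
  calc ‖f w - f x‖ ≤ ‖f w‖ + ‖f x‖ := norm_sub_le _ _
    _ ≤ 2 := by linarith

lemma Fam.norm_deriv_le {f : ℂ → ℂ} (hf : Fam U f) {δ : ℝ} (hδ : 0 < δ) (hb : ball 0 δ ⊆ U) :
    ‖deriv f 0‖ ≤ 1 / δ := by
  refine Complex.norm_deriv_le_div_of_mapsTo_ball (hf.diff.mono hb) ?_ hδ
  intro w hw
  have h1 : ‖f w‖ < 1 := by simpa using hf.maps (hb hw)
  rw [mem_closedBall, hf.zero, dist_zero_right]
  exact h1.le

/-- Pointwise limits along an ultrafilter of members of the family converge locally uniformly. -/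
lemma tendstoLocally_of_pointwise (hU : IsOpen U) {ι : Type*} {p : Filter ι} {g : ι → ℂ → ℂ}
    {f : ℂ → ℂ} (hg : ∀ n, Fam U (g n)) (hp : ∀ z ∈ U, Tendsto (fun n => g n z) p (𝓝 (f z)))
    [p.NeBot] : TendstoLocallyUniformlyOn g f p U := by
  rw [Metric.tendstoLocallyUniformlyOn_iff]
  intro ε hε x hx
  obtain ⟨δ, hδ, hδU⟩ := Metric.isOpen_iff.mp hU x hx
  set η : ℝ := min δ (ε * δ / 8) with hη
  have hηpos : 0 < η := lt_min hδ (by positivity)
  refine ⟨ball x η, mem_nhdsWithin_of_mem_nhds (ball_mem_nhds x hηpos), ?_⟩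
  have e := (Metric.tendsto_nhds.mp (hp x hx)) (ε / 2) (by positivity)
  filter_upwards [e] with n hn y hy
  have hyδ : y ∈ ball x δ := ball_subset_ball (min_le_left _ _) hy
  have hLip : ∀ m, dist (g m y) (g m x) ≤ ε / 4 := by
    intro m
    have h1 := (hg m).dist_le hδ hδU hyδ
    have h2 : dist y x < η := hy
    have h3 : dist y x ≤ ε * δ / 8 := h2.le.trans (min_le_right _ _)
    calc dist (g m y) (g m x) ≤ 2 / δ * dist y x := h1
      _ ≤ 2 / δ * (ε * δ / 8) := by gcongr
      _ = ε / 4 := by field_simp; ring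
  have hyU : y ∈ U := hδU hyδ
  have hlim : dist (f y) (f x) ≤ ε / 4 := by
    refine le_of_tendsto ((hp y hyU).dist (hp x hx)) ?_
    exact Eventually.of_forall hLip
  have := hLip n
  rw [dist_comm] at hn
  calc dist (f y) (g n y) ≤ dist (f y) (f x) + dist (f x) (g n x) + dist (g n x) (g n y) :=
        dist_triangle4 _ _ _ _
    _ < ε := by
        rw [dist_comm (g n x)]
        linarith

theorem exists_extremal (hU : IsOpen U) (hc : IsPreconnected U)
    (hb : Bornology.IsBounded U) (h0 : (0 : ℂ) ∈ U) :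
    ∃ f, Fam U f ∧ deriv f 0 ≠ 0 ∧ ∀ g, Fam U g → ‖deriv g 0‖ ≤ ‖deriv f 0‖ := by
  classical
  obtain ⟨δ, hδ, hδU⟩ := Metric.isOpen_iff.mp hU 0 h0
  obtain ⟨R, hRpos, hR⟩ := hb.subset_ball_lt 0 0
  -- a member of the family with nonzero derivative
  have hid : Fam U (fun z => z / (R : ℂ)) := by
    have hRc : (R : ℂ) ≠ 0 := by exact_mod_cast hRpos.ne'
    refine ⟨(differentiable_id.div_const _).differentiableOn, ?_, ?_, by simp⟩
    · intro x _ y _ h
      simpa [hRc] using h
    · intro z hz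
      have h1 : ‖z‖ < R := by simpa using hR hz
      rw [mem_ball_zero_iff, norm_div, Complex.norm_real, Real.norm_of_nonneg hRpos.le,
        div_lt_one hRpos]
      exact h1
  have hidd : deriv (fun z : ℂ => z / (R : ℂ)) 0 = 1 / (R : ℂ) := by
    have : HasDerivAt (fun z : ℂ => z / (R : ℂ)) (1 / (R : ℂ)) 0 := (hasDerivAt_id _).div_const _
    exact this.deriv
  set A : Set ℝ := (fun g : ℂ → ℂ => ‖deriv g 0‖) '' {g | Fam U g} with hA
  have hAne : A.Nonempty := ⟨_, _, hid, rfl⟩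
  have hAbdd : BddAbove A := by
    refine ⟨1 / δ, ?_⟩
    rintro _ ⟨g, hg, rfl⟩
    exact hg.norm_deriv_le hδ hδU
  obtain ⟨u, -, hu, huA⟩ := exists_seq_tendsto_sSup hAne hAbdd
  choose g hgF hgu using huA
  have hgF' : ∀ n, Fam U (g n) := hgF
  let 𝔘 : Ultrafilter ℕ := hyperfilter ℕ
  have hlim : ∀ z, ∃ a : ℂ, z ∈ U → Tendsto (fun n => g n z) (𝔘 : Filter ℕ) (𝓝 a) ∧ ‖a‖ ≤ 1 := by
    intro z
    by_cases hz : z ∈ U
    · have hmem : ∀ n, g n z ∈ closedBall (0 : ℂ) 1 := fun n =>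
        ball_subset_closedBall ((hgF' n).maps hz)
      have hle : ((𝔘.map (fun n => g n z) : Ultrafilter ℂ) : Filter ℂ) ≤ 𝓟 (closedBall 0 1) := by
        rw [Ultrafilter.coe_map, le_principal_iff, mem_map]
        exact Eventually.of_forall hmem
      obtain ⟨a, ha, hla⟩ := (isCompact_closedBall (0 : ℂ) 1).ultrafilter_le_nhds _ hle
      refine ⟨a, fun _ => ⟨hla, by simpa using ha⟩⟩
    · exact ⟨0, fun h => absurd h hz⟩
  choose f hf using hlim
  have hptw : ∀ z ∈ U, Tendsto (fun n => g n z) (𝔘 : Filter ℕ) (𝓝 (f z)) := fun z hz => (hf z hz).1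
  have hloc : TendstoLocallyUniformlyOn g f (𝔘 : Filter ℕ) U :=
    tendstoLocally_of_pointwise hU hgF' hptw
  have hfd : DifferentiableOn ℂ f U :=
    hloc.differentiableOn (Eventually.of_forall fun n => (hgF' n).diff) hU
  have hder : TendstoLocallyUniformlyOn (deriv ∘ g) (deriv f) (𝔘 : Filter ℕ) U :=
    hloc.deriv (Eventually.of_forall fun n => (hgF' n).diff) hU
  have hder0 : Tendsto (fun n => ‖deriv (g n) 0‖) (𝔘 : Filter ℕ) (𝓝 ‖deriv f 0‖) :=
    ((hder.tendsto_at h0).norm)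
  have hu' : Tendsto u (𝔘 : Filter ℕ) (𝓝 (sSup A)) := hu.mono_left Nat.hyperfilter_le_atTop
  have hder0' : Tendsto (fun n => ‖deriv (g n) 0‖) (𝔘 : Filter ℕ) (𝓝 (sSup A)) := by
    have e : (fun n => ‖deriv (g n) 0‖) = u := funext hgu
    rw [e]
    exact hu'
  have hsup : ‖deriv f 0‖ = sSup A := tendsto_nhds_unique hder0 hder0'
  have hidmem : ‖deriv (fun z : ℂ => z / (R : ℂ)) 0‖ ∈ A := ⟨_, hid, rfl⟩
  have hpos : 0 < sSup A := by
    refine lt_of_lt_of_le ?_ (le_csSup hAbdd hidmem)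
    rw [hidd, norm_div, norm_one, Complex.norm_real, Real.norm_of_nonneg hRpos.le]
    positivity
  have hf0 : deriv f 0 ≠ 0 := by
    intro h
    rw [h, norm_zero] at hsup
    linarith
  have hf00 : f 0 = 0 := by
    have h1 := hptw 0 h0
    have e : (fun n => g n 0) = fun _ => (0 : ℂ) := funext fun n => (hgF' n).zero
    rw [e] at h1
    exact tendsto_nhds_unique h1 tendsto_const_nhds
  have hnc : ¬ ∃ c, EqOn f (fun _ => c) U := by
    rintro ⟨c, hc'⟩
    apply hf0
    have h1 : f =ᶠ[𝓝 0] fun _ => c := eventually_of_mem (hU.mem_nhds h0) hc'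
    rw [h1.deriv_eq]
    simp
  have hinj : InjOn f U :=
    hurwitz_inj hU hc (fun n => (hgF' n).diff) (fun n => (hgF' n).inj) hloc hfd hnc
  have hmaps : MapsTo f U (ball 0 1) := by
    intro z hz
    by_contra hnot
    have h1 : ‖f z‖ ≤ 1 := (hf z hz).2
    have h2 : ‖f z‖ = 1 := le_antisymm h1 (by simpa using hnot)
    have hmax : IsMaxOn (norm ∘ f) U z := by
      intro w hw
      have h3 : ‖f w‖ ≤ 1 := (hf w hw).2
      simpa [h2] using h3
    have h3 := Complex.eqOn_of_isPreconnected_of_isMaxOn_norm hc hU hfd hz hmax h0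
    have h4 : f 0 = f z := h3
    rw [hf00] at h4
    rw [← h4, norm_zero] at h2
    exact zero_ne_one h2
  refine ⟨f, ⟨hfd, hinj, hmaps, hf00⟩, hf0, ?_⟩
  intro k hk
  rw [hsup]
  exact le_csSup hAbdd ⟨k, hk, rfl⟩

/-! ### The Koebe step -/

/-- A continuous square root of a differentiable function is differentiable where it does not
vanish. -/
lemma hasDerivAt_of_sq_eq {s h : ℂ → ℂ} {z h' : ℂ} (hs : ContinuousAt s z)
    (hsq : ∀ y, s y ^ 2 = h y) (hh : HasDerivAt h h' z) (hz : s z ≠ 0) :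
    HasDerivAt s (h' / (2 * s z)) z := by
  rw [hasDerivAt_iff_tendsto_slope] at hh ⊢
  have hs' : Tendsto s (𝓝[≠] z) (𝓝 (s z)) := hs.tendsto.mono_left nhdsWithin_le_nhds
  have hadd : Tendsto (fun y => s y + s z) (𝓝[≠] z) (𝓝 (s z + s z)) := hs'.add_const _
  have h2 : s z + s z ≠ 0 := by
    have : s z + s z = 2 * s z := by ring
    rw [this]
    exact mul_ne_zero two_ne_zero hz
  have hdiv := hh.div hadd h2
  have e2 : h' / (s z + s z) = h' / (2 * s z) := by congr 1; ring
  rw [e2] at hdiv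
  refine hdiv.congr' ?_
  have hne : ∀ᶠ y in 𝓝[≠] z, s y + s z ≠ 0 := hadd.eventually_ne h2
  filter_upwards [hne, self_mem_nhdsWithin] with y hy hyz
  have hyz' : y - z ≠ 0 := sub_ne_zero.mpr hyz
  simp only [Pi.div_apply, slope_def_field, ← hsq]
  field_simp
  ring

lemma koebe_step (hU : IsOpen U) (hUc : IsSimplyConnected U) (h0 : (0 : ℂ) ∈ U) {f : ℂ → ℂ}
    (hf : Fam U f) (hd : deriv f 0 ≠ 0) {a : ℂ} (ha : a ∈ ball (0 : ℂ) 1) (hna : a ∉ f '' U) :
    ∃ g, Fam U g ∧ ‖deriv f 0‖ < ‖deriv g 0‖ := by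
  have ha' : ‖a‖ < 1 := by simpa using ha
  have hfn : ∀ z ∈ U, ‖f z‖ < 1 := fun z hz => by simpa using hf.maps hz
  have hfd : ∀ z ∈ U, HasDerivAt f (deriv f z) z := fun z hz =>
    (hf.diff.differentiableAt (hU.mem_nhds hz)).hasDerivAt
  set h : ℂ → ℂ := fun z => mob a (f z) with hh
  set h' : ℂ → ℂ := fun z => (1 - conj a * a) / (1 - conj a * f z) ^ 2 * deriv f z with hh'
  have hhd : ∀ z ∈ U, HasDerivAt h (h' z) z := fun z hz =>
    (hasDerivAt_mob ha' (hfn z hz)).comp z (hfd z hz)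
  have hhc : ContinuousOn h U := fun z hz => (hhd z hz).continuousAt.continuousWithinAt
  have hhne : ∀ z ∈ U, h z ≠ 0 := by
    intro z hz hzero
    simp only [hh, mob, div_eq_zero_iff] at hzero
    rcases hzero with h1 | h1
    · exact hna ⟨z, hz, sub_eq_zero.mp h1⟩
    · exact mob_denom_ne ha' (hfn z hz) h1
  have hh0 : (0 : ℂ) ∉ h '' U := by
    rintro ⟨z, hz, hzero⟩
    exact hhne z hz hzero
  obtain ⟨s, hsc, hsq⟩ := Complex.exists_continuousOn_pow_eq hUc hU hhc hh0 two_ne_zero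
  have hs0 : ∀ z ∈ U, s z ≠ 0 := by
    intro z hz hzero
    apply hhne z hz
    rw [← hsq, hzero]
    simp
  have hsd : ∀ z ∈ U, HasDerivAt s (h' z / (2 * s z)) z := fun z hz =>
    hasDerivAt_of_sq_eq (hsc.continuousAt (hU.mem_nhds hz)) hsq (hhd z hz) (hs0 z hz)
  have hsn : ∀ z ∈ U, ‖s z‖ < 1 := by
    intro z hz
    have h1 : ‖h z‖ < 1 := norm_mob_lt ha' (hfn z hz)
    rw [← hsq, norm_pow] at h1
    exact (pow_lt_one_iff_of_nonneg (norm_nonneg _) two_ne_zero).mp h1
  have hsinj : InjOn s U := by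
    intro x hx y hy hxy
    have h1 : h x = h y := by rw [← hsq, ← hsq, hxy]
    have h2 : f x = f y := mob_injOn ha' (hf.maps hx) (hf.maps hy) h1
    exact hf.inj hx hy h2
  set b := s 0 with hb
  have hbn : ‖b‖ < 1 := hsn 0 h0
  have hb0 : b ≠ 0 := hs0 0 h0
  have hbsq : b ^ 2 = -a := by
    rw [hb, hsq]
    simp only [hh, hf.zero, mob_zero]
  set g : ℂ → ℂ := fun z => mob b (s z) with hg
  have hgd : ∀ z ∈ U, HasDerivAt g ((1 - conj b * b) / (1 - conj b * s z) ^ 2 *
      (h' z / (2 * s z))) z := fun z hz =>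
    (hasDerivAt_mob hbn (hsn z hz)).comp z (hsd z hz)
  have hFam : Fam U g := by
    refine ⟨fun z hz => (hgd z hz).differentiableAt.differentiableWithinAt, ?_, ?_, ?_⟩
    · intro x hx y hy hxy
      refine hsinj hx hy (mob_injOn hbn ?_ ?_ hxy)
      · simpa using hsn x hx
      · simpa using hsn y hy
    · intro z hz
      simpa using norm_mob_lt hbn (hsn z hz)
    · simp only [hg]
      rw [← hb]
      exact mob_self
  refine ⟨g, hFam, ?_⟩
  have hderiv := (hgd 0 h0).deriv
  rw [hderiv]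
  simp only [hh', hf.zero, ← hb, mul_zero, sub_zero, one_pow, div_one]
  -- computing the norm
  set t := ‖b‖ with ht
  have htpos : 0 < t := norm_pos_iff.mpr hb0
  have hat : ‖a‖ = t ^ 2 := by
    rw [ht, ← norm_pow, hbsq, norm_neg]
  have h1t : 0 < 1 - t ^ 2 := by nlinarith
  have e1 : (1 : ℂ) - conj b * b = ((1 - t ^ 2 : ℝ) : ℂ) := by
    rw [Complex.conj_mul']
    push_cast
    ring
  have e2 : (1 : ℂ) - conj a * a = ((1 - t ^ 4 : ℝ) : ℂ) := by
    rw [Complex.conj_mul', hat]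
    push_cast
    ring
  rw [e1, e2]
  have h1ne : ((1 - t ^ 2 : ℝ) : ℂ) ≠ 0 := by exact_mod_cast h1t.ne'
  have e3 : ((1 - t ^ 2 : ℝ) : ℂ) / ((1 - t ^ 2 : ℝ) : ℂ) ^ 2 * (((1 - t ^ 4 : ℝ) : ℂ) * deriv f 0 / (2 * b))
      = (((1 + t ^ 2 : ℝ) : ℂ)) * deriv f 0 / (2 * b) := by
    have e4 : ((1 - t ^ 4 : ℝ) : ℂ) = ((1 - t ^ 2 : ℝ) : ℂ) * ((1 + t ^ 2 : ℝ) : ℂ) := by
      push_cast
      ring
    rw [e4]
    field_simp
  rw [e3, norm_div, norm_mul, norm_mul, Complex.norm_real, Real.norm_of_nonneg (by positivity),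
    Complex.norm_two, ← ht]
  have hdpos : 0 < ‖deriv f 0‖ := norm_pos_iff.mpr hd
  rw [lt_div_iff₀ (by positivity)]
  have : 2 * t < 1 + t ^ 2 := by nlinarith [sq_pos_of_pos (sub_pos.mpr (show t < 1 from hbn))]
  nlinarith

/-! ### Injective holomorphic maps have nonvanishing derivative -/

lemma deriv_ne_zero_of_injOn {f : ℂ → ℂ} (hU : IsOpen U) (hfd : DifferentiableOn ℂ f U)
    (hinj : InjOn f U) {z0 : ℂ} (hz0 : z0 ∈ U) : deriv f z0 ≠ 0 := by
  intro hzero
  have hfa : AnalyticOnNhd ℂ f U := hfd.analyticOnNhd hU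
  have hda : AnalyticOnNhd ℂ (deriv f) U := hfa.deriv
  -- the zero of `f'` is isolated
  have hiso : ∀ᶠ z in 𝓝[≠] z0, deriv f z ≠ 0 := by
    rcases (hda z0 hz0).eventually_eq_zero_or_eventually_ne_zero with h | h
    · exfalso
      obtain ⟨ε, hε, hεU⟩ := Metric.eventually_nhds_iff_ball.mp (h.and (hU.mem_nhds hz0))
      have hball : ∀ z ∈ ball z0 ε, deriv f z = 0 := fun z hz => (hεU z hz).1
      have hballU : ball z0 ε ⊆ U := fun z hz => (hεU z hz).2
      have hpt : z0 + ((ε / 2 : ℝ) : ℂ) ∈ ball z0 ε := by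
        rw [mem_ball, dist_eq_norm, add_sub_cancel_left, Complex.norm_real,
          Real.norm_of_nonneg (by positivity)]
        linarith
      have heq := hinj (hballU hpt) hz0 (isOpen_ball.is_const_of_deriv_eq_zero
        (convex_ball z0 ε).isPreconnected (hfd.mono hballU) hball hpt (mem_ball_self hε))
      have h2 : ((ε / 2 : ℝ) : ℂ) = 0 := by linear_combination heq
      have h3 : ε / 2 = 0 := by exact_mod_cast h2
      linarith
    · exact h
  obtain ⟨r, hr, hrU⟩ := Metric.isOpen_iff.mp hU z0 hz0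
  set ρ : ℝ := r / 2 with hρ
  have hρpos : 0 < ρ := by positivity
  have hcb : closedBall z0 ρ ⊆ U :=
    (closedBall_subset_ball (by simp only [hρ]; linarith)).trans hrU
  have hsphU : sphere z0 ρ ⊆ U := sphere_subset_closedBall.trans hcb
  -- the lower bound on the sphere
  have hne : ∀ z ∈ sphere z0 ρ, z ≠ z0 := by
    intro z hz h
    rw [h, mem_sphere, dist_self] at hz
    exact hρpos.ne hz
  have hcontS : ContinuousOn (fun z => ‖(f z - f z0) / (z - z0)‖) (sphere z0 ρ) := by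
    apply ContinuousOn.norm
    apply ContinuousOn.div
    · exact (hfd.continuousOn.mono hsphU).sub continuousOn_const
    · exact continuousOn_id.sub continuousOn_const
    · intro z hz
      exact sub_ne_zero.mpr (hne z hz)
  obtain ⟨zm, hzm, hmin⟩ := (isCompact_sphere z0 ρ).exists_isMinOn
    (NormedSpace.sphere_nonempty.mpr hρpos.le) hcontS
  set δ : ℝ := ‖(f zm - f z0) / (zm - z0)‖ with hδ
  have hδpos : 0 < δ := by
    apply norm_pos_iff.mpr
    apply div_ne_zero
    · rw [sub_ne_zero]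
      intro h
      exact hne zm hzm (hinj (hsphU hzm) hz0 h)
    · exact sub_ne_zero.mpr (hne zm hzm)
  -- tube lemma
  have htube : ∀ᶠ w in 𝓝 z0, ∀ z ∈ sphere z0 ρ, δ / 2 < ‖(f z - f w) / (z - w)‖ := by
    apply (isCompact_sphere z0 ρ).eventually_forall_of_forall_eventually
    intro y hy
    have hcont : ContinuousAt (fun p : ℂ × ℂ => ‖(f p.2 - f p.1) / (p.2 - p.1)‖) (z0, y) := by
      apply ContinuousAt.norm
      apply ContinuousAt.div
      · apply ContinuousAt.sub
        · exact ((hfd.continuousOn.continuousAt (hU.mem_nhds (hsphU hy))).comp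
            continuousAt_snd)
        · exact ((hfd.continuousOn.continuousAt (hU.mem_nhds hz0)).comp continuousAt_fst)
      · exact continuousAt_snd.sub continuousAt_fst
      · exact sub_ne_zero.mpr (hne y hy)
    have hlt : δ / 2 < ‖(f y - f z0) / (y - z0)‖ := by
      have : δ ≤ ‖(f y - f z0) / (y - z0)‖ := hmin hy
      linarith
    exact hcont.eventually (lt_mem_nhds hlt)
  -- the slope at `z0` is small
  have hslope : ∀ᶠ w in 𝓝[≠] z0, ‖slope f z0 w‖ < δ / 2 := by
    have h1 : HasDerivAt f 0 z0 := by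
      have := (hfd.differentiableAt (hU.mem_nhds hz0)).hasDerivAt
      rwa [hzero] at this
    have h2 := hasDerivAt_iff_tendsto_slope.mp h1
    have h3 := h2.norm
    rw [norm_zero] at h3
    exact h3.eventually (gt_mem_nhds (by positivity))
  have hball : ∀ᶠ w in 𝓝[≠] z0, w ∈ ball z0 ρ :=
    mem_nhdsWithin_of_mem_nhds (ball_mem_nhds z0 hρpos)
  obtain ⟨w, hw1, hw2, hw3, hw4, hw5⟩ := (hiso.and ((htube.filter_mono nhdsWithin_le_nhds).and
    (hslope.and (hball.and self_mem_nhdsWithin)))).exists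
  have hw5' : w ≠ z0 := hw5
  have hwU : w ∈ U := hcb (ball_subset_closedBall hw4)
  -- `dslope f w` is nonvanishing and differentiable on the closed ball
  set F := dslope f w with hF
  have hFd : DifferentiableOn ℂ F U := (Complex.differentiableOn_dslope (hU.mem_nhds hwU)).mpr hfd
  have hFne : ∀ z ∈ U, F z ≠ 0 := by
    intro z hz
    by_cases hzw : z = w
    · rw [hzw, hF, dslope_same]
      exact hw1
    · rw [hF, dslope_of_ne _ hzw, slope_def_field]
      apply div_ne_zero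
      · rw [sub_ne_zero]
        intro h
        exact hzw (hinj hz hwU h)
      · exact sub_ne_zero.mpr hzw
  have hkd : DiffContOnCl ℂ (fun z => (F z)⁻¹) (ball z0 ρ) :=
    DifferentiableOn.diffContOnCl_ball (U := closedBall z0 ρ)
      ((hFd.mono hcb).inv fun z hz => hFne z (hcb hz)) subset_rfl
  have hbd : ∀ z ∈ frontier (ball z0 ρ), ‖(F z)⁻¹‖ ≤ 2 / δ := by
    intro z hz
    rw [frontier_ball z0 hρpos.ne'] at hz
    have hzw : z ≠ w := by
      rintro rfl
      rw [mem_sphere] at hz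
      rw [mem_ball] at hw4
      linarith
    have h1 := hw2 z hz
    rw [hF, dslope_of_ne _ hzw, slope_def_field, norm_inv]
    rw [inv_le_comm₀ (by linarith [div_pos hδpos two_pos]) (by positivity), inv_div]
    exact h1.le
  have hmem : z0 ∈ closure (ball z0 ρ) := subset_closure (mem_ball_self hρpos)
  have hfinal := Complex.norm_le_of_forall_mem_frontier_norm_le isBounded_ball hkd hbd hmem
  have hF0 : F z0 = slope f z0 w := by
    rw [hF, dslope_of_ne _ hw5'.symm, slope_comm]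
  have hF0pos : 0 < ‖F z0‖ := norm_pos_iff.mpr (hFne z0 hz0)
  rw [norm_inv, inv_le_comm₀ hF0pos (by positivity), inv_div, hF0] at hfinal
  linarith

end RMT

/-- **Riemann mapping theorem** for bounded open sets star-shaped about `0`. -/
theorem exists_riemann_map {U : Set ℂ} (hU : IsOpen U) (hb : Bornology.IsBounded U)
    (h0 : (0 : ℂ) ∈ U) (hs : StarConvex ℝ (0 : ℂ) U) :
    ∃ f : ℂ → ℂ, DifferentiableOn ℂ f U ∧ InjOn f U ∧ f '' U = ball 0 1 ∧ f 0 = 0 ∧
      ∀ z ∈ U, deriv f z ≠ 0 := by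
  have hUc : IsSimplyConnected U := by
    have : ContractibleSpace U := hs.contractibleSpace ⟨0, h0⟩
    exact (inferInstance : SimplyConnectedSpace U)
  have hconn : IsPreconnected U := (hs.isPathConnected h0).isConnected.isPreconnected
  obtain ⟨f, hf, hd, hmax⟩ := RMT.exists_extremal hU hconn hb h0
  refine ⟨f, hf.diff, hf.inj, ?_, hf.zero, fun z hz =>
    RMT.deriv_ne_zero_of_injOn hU hf.diff hf.inj hz⟩
  apply Subset.antisymm
  · exact hf.maps.image_subset
  · intro a ha
    by_contra hna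
    obtain ⟨g, hg, hlt⟩ := RMT.koebe_step hU hUc h0 hf hd ha hna
    exact absurd (hmax g hg) (not_le.mpr hlt)

end Crest.Agent.CrouzeixT
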