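import Crest.Agent.CrouzeixT.LevelC
import Crest.Agent.CrouzeixT.RMT

/-!
# CZT-Level: exterior map + convex level curves.

`exists_convexExtMap`: for a compact convex set `K` with `0` in its interior and an open `V ⊇ K`,
there is a conformal parametrisation `G` of the exterior of a convex curve around `K`, inside `V`.
-/

open Complex Filter Metric Set Topology

namespace Crest.Agent.CrouzeixT

theorem exists_convexExtMap {K : Set ℂ} (hKc : IsCompact K) (hKconv : Convex ℝ K)
    (h0 : (0 : ℂ) ∈ interior K) {V : Set ℂ} (hV : IsOpen V) (hKV : K ⊆ V) :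
    ∃ G r0 c c0, ConvexExtMap K G r0 c c0 ∧ ∀ t, ‖t‖ = 1 → G t ∈ V :=
  Level.exists_convexExtMap_of_rmt (fun hU hb h0 hs => exists_riemann_map hU hb h0 hs)
    hKc hKconv h0 hV hKV

end Crest.Agent.CrouzeixT
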