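import Crest.Agent.CrouzeixT.Defs

/-!
# Exterior Riemann map of a compact convex set: basic objects.

From a Riemann map `f : U → 𝔻` of the inverted complement `U = {0} ∪ {w ≠ 0 | w⁻¹ ∉ K}` we build
`psi = f⁻¹`, the exterior map `G t = (psi t⁻¹)⁻¹`, its inverse `phi z = (f z⁻¹)⁻¹` and the level
function `Phi` (`= ‖phi‖` off `K`, `= 1` on `K`).
-/

open Complex Filter Metric Set Topology
open scoped Real ComplexConjugate

namespace Crest.Agent.CrouzeixT.Level

/-- The inverted complement of `K`. -/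
def invDom (K : Set ℂ) : Set ℂ := {w | w = 0 ∨ w⁻¹ ∉ K}

lemma zero_mem_invDom (K : Set ℂ) : (0 : ℂ) ∈ invDom K := Or.inl rfl

lemma isOpen_invDom {K : Set ℂ} (hKc : IsCompact K) : IsOpen (invDom K) := by
  rw [isOpen_iff_mem_nhds]
  intro w hw
  by_cases hw0 : w = 0
  · subst hw0
    obtain ⟨M, hM⟩ := hKc.isBounded.subset_closedBall 0
    have hMpos : 0 < |M| + 1 := by positivity
    have : ball (0 : ℂ) (|M| + 1)⁻¹ ∈ 𝓝 (0 : ℂ) := ball_mem_nhds _ (by positivity)
    filter_upwards [this] with y hy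
    by_cases hy0 : y = 0
    · exact Or.inl hy0
    · right
      intro hyK
      have h1 := hM hyK
      rw [mem_closedBall_zero_iff, norm_inv] at h1
      rw [mem_ball_zero_iff] at hy
      have hypos : 0 < ‖y‖ := norm_pos_iff.mpr hy0
      have h2 : (|M| + 1)  < ‖y‖⁻¹ := by
        rw [lt_inv_comm₀ hMpos hypos]; exact hy
      have := le_abs_self M
      linarith
  · have hw' : w⁻¹ ∉ K := hw.resolve_left hw0
    have hc : ContinuousAt (fun y : ℂ => y⁻¹) w := continuousAt_inv₀ hw0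
    have : (fun y : ℂ => y⁻¹) ⁻¹' Kᶜ ∈ 𝓝 w :=
      hc (hKc.isClosed.isOpen_compl.mem_nhds hw')
    filter_upwards [this] with y hy
    exact Or.inr hy

lemma isBounded_invDom {K : Set ℂ} (h0 : (0 : ℂ) ∈ interior K) : Bornology.IsBounded (invDom K) := by
  rw [mem_interior_iff_mem_nhds, Metric.mem_nhds_iff] at h0
  obtain ⟨δ, hδ, hb⟩ := h0
  refine (Metric.isBounded_closedBall (x := (0 : ℂ)) (r := δ⁻¹)).subset ?_
  intro w hw
  rw [mem_closedBall_zero_iff]
  rcases hw with hw | hw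
  · subst hw; simp; positivity
  · by_contra hlt
    push Not at hlt
    apply hw
    apply hb
    rw [mem_ball_zero_iff, norm_inv]
    have : 0 < ‖w‖ := lt_trans (by positivity) hlt
    rw [inv_lt_comm₀ this hδ]; exact hlt

lemma starConvex_invDom {K : Set ℂ} (hKconv : Convex ℝ K) (h0 : (0 : ℂ) ∈ K) :
    StarConvex ℝ (0 : ℂ) (invDom K) := by
  intro y hy a b ha hb hab
  simp only [smul_zero, zero_add]
  by_cases hb0 : b = 0
  · subst hb0; simp [zero_mem_invDom]
  by_cases hy0 : y = 0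
  · subst hy0; simp [zero_mem_invDom]
  refine Or.inr ?_
  intro hK
  have hy' : y⁻¹ ∉ K := hy.resolve_left hy0
  apply hy'
  have hbpos : 0 < b := lt_of_le_of_ne hb (Ne.symm hb0)
  have := hKconv hK h0 hbpos.le ha (by linarith : b + a = 1)
  have e : b • (b • y)⁻¹ + a • (0 : ℂ) = y⁻¹ := by
    simp only [smul_zero, add_zero, Complex.real_smul]
    have hb' : (b : ℂ) ≠ 0 := by exact_mod_cast hb0
    field_simp
  rwa [e] at this

/-- Data: a Riemann map of the inverted complement of a convex compact `K` with `0` inside. -/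
structure RM (K : Set ℂ) (f : ℂ → ℂ) : Prop where
  Kc : IsCompact K
  Kconv : Convex ℝ K
  h0 : (0 : ℂ) ∈ interior K
  diff : DifferentiableOn ℂ f (invDom K)
  inj : InjOn f (invDom K)
  img : f '' (invDom K) = ball 0 1
  f0 : f 0 = 0
  der : ∀ z ∈ invDom K, deriv f z ≠ 0

variable {K : Set ℂ} {f : ℂ → ℂ}

/-- Inverse of the Riemann map. -/
noncomputable def psi (K : Set ℂ) (f : ℂ → ℂ) : ℂ → ℂ := Function.invFunOn f (invDom K)

/-- The exterior map. -/
noncomputable def G (K : Set ℂ) (f : ℂ → ℂ) (t : ℂ) : ℂ := (psi K f t⁻¹)⁻¹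

/-- The inverse of the exterior map. -/
noncomputable def phi (f : ℂ → ℂ) (z : ℂ) : ℂ := (f z⁻¹)⁻¹

open Classical in
/-- The level function. -/
noncomputable def Phi (K : Set ℂ) (f : ℂ → ℂ) (z : ℂ) : ℝ := if z ∈ K then 1 else ‖phi f z‖

namespace RM

variable (h : RM K f)
include h

lemma zero_mem : (0 : ℂ) ∈ K := interior_subset h.h0

lemma ne_zero_of_notMem {z : ℂ} (hz : z ∉ K) : z ≠ 0 := by
  rintro rfl; exact hz h.zero_mem

lemma isOpen : IsOpen (invDom K) := isOpen_invDom h.Kc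

lemma f_norm_lt {w : ℂ} (hw : w ∈ invDom K) : ‖f w‖ < 1 := by
  have : f w ∈ ball (0 : ℂ) 1 := h.img ▸ mem_image_of_mem f hw
  simpa using this

lemma f_ne_zero {w : ℂ} (hw : w ∈ invDom K) (hw0 : w ≠ 0) : f w ≠ 0 := by
  intro hfw
  exact hw0 (h.inj hw (zero_mem_invDom K) (by rw [hfw, h.f0]))

lemma psi_mem {s : ℂ} (hs : s ∈ ball (0 : ℂ) 1) : psi K f s ∈ invDom K := by
  rw [← h.img] at hs
  exact Function.invFunOn_mem hs

lemma f_psi {s : ℂ} (hs : s ∈ ball (0 : ℂ) 1) : f (psi K f s) = s := by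
  rw [← h.img] at hs
  exact Function.invFunOn_eq hs

lemma psi_f {w : ℂ} (hw : w ∈ invDom K) : psi K f (f w) = w :=
  h.inj (h.psi_mem (h.img ▸ mem_image_of_mem f hw)) hw
    (h.f_psi (h.img ▸ mem_image_of_mem f hw))

lemma psi_zero : psi K f 0 = 0 := by
  have := h.psi_f (zero_mem_invDom K)
  rwa [h.f0] at this

lemma psi_ne_zero {s : ℂ} (hs : s ∈ ball (0 : ℂ) 1) (hs0 : s ≠ 0) : psi K f s ≠ 0 := by
  intro hp
  apply hs0
  rw [← h.f_psi hs, hp, h.f0]

lemma differentiableAt_f {w : ℂ} (hw : w ∈ invDom K) : DifferentiableAt ℂ f w :=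
  (h.diff w hw).differentiableAt (h.isOpen.mem_nhds hw)

lemma hasDerivAt_psi {s : ℂ} (hs : s ∈ ball (0 : ℂ) 1) :
    HasDerivAt (psi K f) (deriv f (psi K f s))⁻¹ s := by
  have hw := h.psi_mem hs
  have han : AnalyticOnNhd ℂ f (invDom K) := h.diff.analyticOnNhd h.isOpen
  have hstrict : HasStrictDerivAt f (deriv f (psi K f s)) (psi K f s) :=
    (han _ hw).hasStrictDerivAt
  have := hstrict.to_local_left_inverse (f := f) (g := psi K f) (h.der _ hw)
    (by
      filter_upwards [h.isOpen.mem_nhds hw] with x hx using h.psi_f hx)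
  rw [h.f_psi hs] at this
  exact this.hasDerivAt

lemma differentiableAt_psi {s : ℂ} (hs : s ∈ ball (0 : ℂ) 1) : DifferentiableAt ℂ (psi K f) s :=
  (h.hasDerivAt_psi hs).differentiableAt

lemma differentiableOn_psi : DifferentiableOn ℂ (psi K f) (ball 0 1) :=
  fun _ hs => (h.differentiableAt_psi hs).differentiableWithinAt

lemma inv_mem_ball {t : ℂ} (ht : 1 < ‖t‖) : t⁻¹ ∈ ball (0 : ℂ) 1 := by
  rw [mem_ball_zero_iff, norm_inv]
  exact inv_lt_one_of_one_lt₀ ht

lemma inv_ne_zero' {t : ℂ} (ht : 1 < ‖t‖) : t⁻¹ ≠ 0 := by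
  have : t ≠ 0 := by
    rintro rfl
    simp at ht
    linarith
  exact inv_ne_zero this

lemma t_ne_zero {t : ℂ} (ht : 1 < ‖t‖) : t ≠ 0 := by
  rintro rfl
  simp at ht
  linarith

/-! ### The exterior map -/

lemma differentiableAt_G {t : ℂ} (ht : 1 < ‖t‖) : DifferentiableAt ℂ (G K f) t := by
  have h1 := h.inv_mem_ball ht
  have hne := h.psi_ne_zero h1 (h.inv_ne_zero' ht)
  have h2 : DifferentiableAt ℂ (fun t : ℂ => t⁻¹) t := differentiableAt_inv (h.t_ne_zero ht)
  have h3 : DifferentiableAt ℂ (fun t : ℂ => psi K f t⁻¹) t :=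
    (h.differentiableAt_psi h1).comp t h2
  exact h3.inv hne

lemma G_notMem {t : ℂ} (ht : 1 < ‖t‖) : G K f t ∉ K := by
  have h1 := h.inv_mem_ball ht
  have hne := h.psi_ne_zero h1 (h.inv_ne_zero' ht)
  exact (h.psi_mem h1).resolve_left hne

lemma phi_G {t : ℂ} (ht : 1 < ‖t‖) : phi f (G K f t) = t := by
  have h1 := h.inv_mem_ball ht
  simp only [phi, G, inv_inv]
  rw [h.f_psi h1, inv_inv]

lemma norm_phi_gt {z : ℂ} (hz : z ∉ K) : 1 < ‖phi f z‖ := by
  have hz0 := h.ne_zero_of_notMem hz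
  have hw : z⁻¹ ∈ invDom K := Or.inr (by simpa using hz)
  have hne := h.f_ne_zero hw (inv_ne_zero hz0)
  simp only [phi, norm_inv]
  exact (one_lt_inv₀ (norm_pos_iff.mpr hne)).mpr (h.f_norm_lt hw)

lemma G_phi {z : ℂ} (hz : z ∉ K) : G K f (phi f z) = z := by
  have hz0 := h.ne_zero_of_notMem hz
  have hw : z⁻¹ ∈ invDom K := Or.inr (by simpa using hz)
  simp only [phi, G, inv_inv]
  rw [h.psi_f hw, inv_inv]

lemma injOn_G : InjOn (G K f) {t | 1 < ‖t‖} := by
  intro t ht t' ht' e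
  have := congrArg (phi f) e
  rwa [h.phi_G ht, h.phi_G ht'] at this

lemma differentiableAt_phi {z : ℂ} (hz : z ∉ K) : DifferentiableAt ℂ (phi f) z := by
  have hz0 := h.ne_zero_of_notMem hz
  have hw : z⁻¹ ∈ invDom K := Or.inr (by simpa using hz)
  have hne := h.f_ne_zero hw (inv_ne_zero hz0)
  have h2 : DifferentiableAt ℂ (fun t : ℂ => t⁻¹) z := differentiableAt_inv hz0
  have h3 : DifferentiableAt ℂ (fun t : ℂ => f t⁻¹) z :=
    (h.differentiableAt_f hw).comp z h2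
  exact h3.inv hne

/-- The expansion at infinity. -/
lemma exists_expansion : ∃ c c0 : ℂ, c ≠ 0 ∧
    Tendsto (fun t => G K f t - c * t) (Bornology.cobounded ℂ) (𝓝 c0) := by
  have hU : ball (0 : ℂ) 1 ∈ 𝓝 (0 : ℂ) := ball_mem_nhds _ one_pos
  have hmem0 : (0 : ℂ) ∈ ball (0 : ℂ) 1 := by simp
  -- `Y = dslope psi 0`
  set Y := dslope (psi K f) 0 with hY
  have hYd : DifferentiableOn ℂ Y (ball 0 1) :=
    (Complex.differentiableOn_dslope hU).mpr h.differentiableOn_psi
  have hY0 : Y 0 ≠ 0 := by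
    rw [hY, dslope_same]
    rw [(h.hasDerivAt_psi hmem0).deriv]
    exact inv_ne_zero (h.der _ (h.psi_mem hmem0))
  have hYs : ∀ s ∈ ball (0 : ℂ) 1, Y s ≠ 0 := by
    intro s hs
    by_cases hs0 : s = 0
    · subst hs0; exact hY0
    · rw [hY, dslope_of_ne _ hs0, slope_def_field, h.psi_zero, sub_zero, sub_zero]
      exact div_ne_zero (h.psi_ne_zero hs hs0) hs0
  set W : ℂ → ℂ := fun s => (Y s)⁻¹ with hW
  have hWd : DifferentiableOn ℂ W (ball 0 1) := hYd.inv hYs
  set Z := dslope W 0 with hZ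
  have hZd : DifferentiableOn ℂ Z (ball 0 1) :=
    (Complex.differentiableOn_dslope hU).mpr hWd
  have hZc : ContinuousAt Z 0 := (hZd 0 hmem0).differentiableAt hU |>.continuousAt
  refine ⟨W 0, Z 0, inv_ne_zero hY0, ?_⟩
  have key : ∀ t : ℂ, 1 < ‖t‖ → G K f t - W 0 * t = Z t⁻¹ := by
    intro t ht
    have ht0 := h.t_ne_zero ht
    have hs0 := h.inv_ne_zero' ht
    have hs := h.inv_mem_ball ht
    have hZs : Z t⁻¹ = (W t⁻¹ - W 0) / t⁻¹ := by
      rw [hZ, dslope_of_ne _ hs0, slope_def_field, sub_zero]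
    have hpsi : psi K f t⁻¹ = t⁻¹ * Y t⁻¹ := by
      rw [hY, dslope_of_ne _ hs0, slope_def_field, h.psi_zero, sub_zero, sub_zero]
      field_simp
    have hYne := hYs _ hs
    rw [hZs]
    simp only [G, hW]
    rw [hpsi]
    field_simp
  have hlim : Tendsto (fun t : ℂ => t⁻¹) (Bornology.cobounded ℂ) (𝓝 0) :=
    tendsto_inv₀_cobounded
  have h1 : Tendsto (fun t : ℂ => Z t⁻¹) (Bornology.cobounded ℂ) (𝓝 (Z 0)) :=
    hZc.tendsto.comp hlim
  refine h1.congr' ?_
  have hev : ∀ᶠ t : ℂ in Bornology.cobounded ℂ, 1 < ‖t‖ :=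
    (tendsto_norm_atTop_iff_cobounded.mpr tendsto_id).eventually (eventually_gt_atTop 1)
  filter_upwards [hev] with t ht
  exact (key t ht).symm

end RM

end Crest.Agent.CrouzeixT.Level
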