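import Crest.Agent.CrouzeixT.LevelA

/-!
# The level function: continuity, growth, maximum principle.
-/

open Complex Filter Metric Set Topology
open scoped Real ComplexConjugate

namespace Crest.Agent.CrouzeixT.Level

lemma exists_of_eventually_cobounded {P : ℂ → Prop} (h : ∀ᶠ t in Bornology.cobounded ℂ, P t) :
    ∃ T : ℝ, ∀ t, T ≤ ‖t‖ → P t := by
  have h1 : Bornology.IsBounded ({t | P t}ᶜ) := by
    rw [Bornology.isBounded_def, compl_compl]
    exact h
  obtain ⟨M, hM⟩ := h1.subset_closedBall 0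
  refine ⟨M + 1, fun t ht => ?_⟩
  by_contra hP
  have := hM (show t ∈ {t | P t}ᶜ from hP)
  rw [mem_closedBall_zero_iff] at this
  linarith

variable {K : Set ℂ} {f : ℂ → ℂ}

namespace RM

variable (h : RM K f)
include h

lemma Phi_of_mem {z : ℂ} (hz : z ∈ K) : Phi K f z = 1 := by
  simp [Phi, hz]

lemma Phi_of_notMem {z : ℂ} (hz : z ∉ K) : Phi K f z = ‖phi f z‖ := by
  simp [Phi, hz]

lemma Phi_G {t : ℂ} (ht : 1 < ‖t‖) : Phi K f (G K f t) = ‖t‖ := by
  rw [h.Phi_of_notMem (h.G_notMem ht), h.phi_G ht]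

lemma one_le_Phi (z : ℂ) : 1 ≤ Phi K f z := by
  by_cases hz : z ∈ K
  · rw [h.Phi_of_mem hz]
  · rw [h.Phi_of_notMem hz]; exact (h.norm_phi_gt hz).le

lemma one_lt_Phi {z : ℂ} (hz : z ∉ K) : 1 < Phi K f z := by
  rw [h.Phi_of_notMem hz]; exact h.norm_phi_gt hz

open Classical in
lemma continuous_aux :
    Continuous (fun w : ℂ => if w ∈ invDom K then ‖f w‖ else 1) := by
  classical
  rw [continuous_iff_continuousAt]
  intro w0
  by_cases hw0 : w0 ∈ invDom K
  · have hev : (fun w : ℂ => if w ∈ invDom K then ‖f w‖ else 1) =ᶠ[𝓝 w0] fun w => ‖f w‖ := by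
      filter_upwards [h.isOpen.mem_nhds hw0] with w hw
      simp [hw]
    refine ContinuousAt.congr ?_ hev.symm
    exact (h.differentiableAt_f hw0).continuousAt.norm
  · have hval : (if w0 ∈ invDom K then ‖f w0‖ else 1) = 1 := by simp [hw0]
    unfold ContinuousAt
    change Tendsto _ _ (𝓝 (if w0 ∈ invDom K then ‖f w0‖ else 1))
    rw [hval]
    rw [tendsto_order]
    constructor
    · intro a ha
      set r := max a 0 with hr
      have hr1 : r < 1 := max_lt ha one_pos
      have hr0 : 0 ≤ r := le_max_right _ _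
      have hsub : closedBall (0 : ℂ) r ⊆ ball 0 1 := closedBall_subset_ball hr1
      have hcomp : IsCompact (psi K f '' closedBall 0 r) := by
        refine (isCompact_closedBall _ _).image_of_continuousOn ?_
        exact (h.differentiableOn_psi.continuousOn).mono hsub
      have hnot : w0 ∉ psi K f '' closedBall 0 r := by
        rintro ⟨s, hs, rfl⟩
        exact hw0 (h.psi_mem (hsub hs))
      filter_upwards [hcomp.isClosed.isOpen_compl.mem_nhds hnot] with w hw
      by_cases hwU : w ∈ invDom K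
      · simp only [hwU, if_true]
        have : r < ‖f w‖ := by
          by_contra hle
          push Not at hle
          exact hw ⟨f w, by simpa using hle, h.psi_f hwU⟩
        exact lt_of_le_of_lt (le_max_left _ _) this
      · simpa [hwU] using ha
    · intro a ha
      refine Eventually.of_forall fun w => ?_
      by_cases hwU : w ∈ invDom K
      · simp only [hwU, if_true]
        exact (h.f_norm_lt hwU).trans ha
      · simpa [hwU] using ha

lemma continuous_Phi : Continuous (Phi K f) := by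
  classical
  rw [continuous_iff_continuousAt]
  intro z0
  by_cases hz0 : z0 = 0
  · subst hz0
    have hev : Phi K f =ᶠ[𝓝 (0 : ℂ)] fun _ => 1 := by
      filter_upwards [mem_interior_iff_mem_nhds.mp h.h0] with z hz
      exact h.Phi_of_mem hz
    exact (continuousAt_const (y := (1 : ℝ))).congr hev.symm
  · have hev : Phi K f =ᶠ[𝓝 z0]
        fun z => ((fun w : ℂ => if w ∈ invDom K then ‖f w‖ else 1) z⁻¹)⁻¹ := by
      filter_upwards [isOpen_ne.mem_nhds hz0] with z hz
      by_cases hzK : z ∈ K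
      · have : z⁻¹ ∉ invDom K := by
          rintro (h1 | h1)
          · exact hz (inv_eq_zero.mp h1)
          · exact h1 (by simpa using hzK)
        simp [h.Phi_of_mem hzK, this]
      · have : z⁻¹ ∈ invDom K := Or.inr (by simpa using hzK)
        simp [h.Phi_of_notMem hzK, this, phi]
    refine ContinuousAt.congr ?_ hev.symm
    refine ContinuousAt.inv₀ ?_ ?_
    · exact (h.continuous_aux.continuousAt).comp (continuousAt_inv₀ hz0)
    · by_cases hzK : z0 ∈ K
      · have : z0⁻¹ ∉ invDom K := by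
          rintro (h1 | h1)
          · exact hz0 (inv_eq_zero.mp h1)
          · exact h1 (by simpa using hzK)
        simp [this]
      · have hU : z0⁻¹ ∈ invDom K := Or.inr (by simpa using hzK)
        have := h.f_ne_zero hU (inv_ne_zero hz0)
        simp [hU, this]

/-- Bounded level sets. -/
lemma exists_norm_le_of_Phi_le (L : ℝ) : ∃ C : ℝ, ∀ z, Phi K f z ≤ L → ‖z‖ ≤ C := by
  obtain ⟨M, hM⟩ := h.Kc.isBounded.subset_closedBall 0
  set L' : ℝ := max L 1 with hL'
  have hL'pos : 0 < L' := lt_of_lt_of_le one_pos (le_max_right _ _)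
  have hfc : ContinuousAt f 0 := (h.differentiableAt_f (zero_mem_invDom K)).continuousAt
  have hnh : ∀ᶠ w in 𝓝 (0 : ℂ), ‖f w‖ < L'⁻¹ := by
    have := hfc.norm.tendsto
    rw [h.f0, norm_zero] at this
    exact this.eventually (gt_mem_nhds (by positivity))
  obtain ⟨η, hη, hball⟩ := Metric.eventually_nhds_iff.mp hnh
  refine ⟨max M η⁻¹, fun z hz => ?_⟩
  by_cases hzK : z ∈ K
  · have := hM hzK
    rw [mem_closedBall_zero_iff] at this
    exact this.trans (le_max_left _ _)
  · refine le_trans ?_ (le_max_right _ _)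
    by_contra hlt
    push Not at hlt
    have hz0 := h.ne_zero_of_notMem hzK
    have hzpos : 0 < ‖z‖ := norm_pos_iff.mpr hz0
    have h1 : ‖z⁻¹‖ < η := by
      rw [norm_inv, inv_lt_comm₀ hzpos hη]; exact hlt
    have h2 := @hball z⁻¹ (by simpa using h1)
    have hU : z⁻¹ ∈ invDom K := Or.inr (by simpa using hzK)
    have hne := h.f_ne_zero hU (inv_ne_zero hz0)
    rw [h.Phi_of_notMem hzK] at hz
    simp only [phi, norm_inv] at hz
    have hpos : 0 < ‖f z⁻¹‖ := norm_pos_iff.mpr hne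
    have h3 : L' < ‖f z⁻¹‖⁻¹ := by
      rw [lt_inv_comm₀ hL'pos hpos]; exact h2
    have h4 : L ≤ L' := le_max_left _ _
    linarith

/-- Neighbourhoods of `K` contain sublevel sets. -/
lemma exists_sublevel_subset {V : Set ℂ} (hV : IsOpen V) (hKV : K ⊆ V) :
    ∃ r : ℝ, 1 < r ∧ ∀ z, Phi K f z < r → z ∈ V := by
  obtain ⟨C, hC⟩ := h.exists_norm_le_of_Phi_le 2
  set A : Set ℂ := {z | Phi K f z ≤ 2} ∩ Vᶜ with hA
  have hAc : IsCompact A := by
    apply Metric.isCompact_of_isClosed_isBounded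
    · exact (isClosed_le h.continuous_Phi continuous_const).inter hV.isClosed_compl
    · refine (Metric.isBounded_closedBall (x := (0 : ℂ)) (r := C)).subset ?_
      intro z hz
      rw [mem_closedBall_zero_iff]
      exact hC z hz.1
  rcases A.eq_empty_or_nonempty with hAe | hAne
  · refine ⟨2, by norm_num, fun z hz => ?_⟩
    by_contra hzV
    have : z ∈ A := ⟨le_of_lt hz, hzV⟩
    rw [hAe] at this
    exact this
  · obtain ⟨z0, hz0A, hz0⟩ := hAc.exists_isMinOn hAne h.continuous_Phi.continuousOn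
    have hz0K : z0 ∉ K := fun hh => hz0A.2 (hKV hh)
    have hm := h.one_lt_Phi hz0K
    refine ⟨min 2 (Phi K f z0), lt_min (by norm_num) hm, fun z hz => ?_⟩
    by_contra hzV
    have h1 : z ∈ A := ⟨le_of_lt (lt_of_lt_of_le hz (min_le_left _ _)), hzV⟩
    have h2 : Phi K f z0 ≤ Phi K f z := hz0 h1
    have h3 := lt_of_lt_of_le hz (min_le_right _ _)
    linarith

/-- Growth of `G` and `Phi`. -/
lemma exists_growth {c c0 : ℂ} (hc : c ≠ 0)
    (hlim : Tendsto (fun t => G K f t - c * t) (Bornology.cobounded ℂ) (𝓝 c0)) :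
    ∃ T C : ℝ, 1 < T ∧ 0 ≤ C ∧ (∀ t, T ≤ ‖t‖ → ‖G K f t‖ ≤ ‖c‖ * ‖t‖ + C) ∧
      ∀ z, Phi K f z ≤ ‖z‖ / ‖c‖ + C := by
  have hcpos : 0 < ‖c‖ := norm_pos_iff.mpr hc
  have hev : ∀ᶠ t in Bornology.cobounded ℂ, ‖G K f t - c * t‖ < ‖c0‖ + 1 := by
    have := hlim.norm
    exact this.eventually (gt_mem_nhds (by linarith))
  obtain ⟨T0, hT0⟩ := exists_of_eventually_cobounded hev
  set T := max T0 2 with hT
  have hT1 : 1 < T := lt_of_lt_of_le (by norm_num) (le_max_right _ _)
  set C1 := ‖c0‖ + 1 with hC1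
  have hC1pos : 0 ≤ C1 := by positivity
  have hkey : ∀ t, T ≤ ‖t‖ → ‖G K f t - c * t‖ ≤ C1 := fun t ht =>
    (hT0 t ((le_max_left _ _).trans ht)).le
  refine ⟨T, T + C1 / ‖c‖ + C1, hT1, by positivity, ?_, ?_⟩
  · intro t ht
    have h1 := hkey t ht
    have h2 : ‖G K f t‖ ≤ ‖G K f t - c * t‖ + ‖c * t‖ := by
      simpa using norm_add_le (G K f t - c * t) (c * t)
    rw [norm_mul] at h2
    have h3 : 0 ≤ C1 / ‖c‖ := by positivity
    linarith
  · intro z
    have h0 : 0 ≤ ‖z‖ / ‖c‖ := by positivity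
    have h3 : 0 ≤ C1 / ‖c‖ := by positivity
    by_cases hzK : z ∈ K
    · rw [h.Phi_of_mem hzK]; linarith
    · rw [h.Phi_of_notMem hzK]
      by_cases hlt : ‖phi f z‖ < T
      · linarith
      · push Not at hlt
        have h1 := hkey _ hlt
        rw [h.G_phi hzK] at h1
        set t := phi f z
        have h2 : ‖c * t‖ ≤ ‖z‖ + ‖z - c * t‖ := by
          have := norm_sub_le z (z - c * t)
          simpa using this
        rw [norm_mul] at h2
        have h4 : ‖c‖ * ‖t‖ ≤ ‖z‖ + C1 := by linarith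
        have h5 : ‖t‖ ≤ (‖z‖ + C1) / ‖c‖ := by
          rw [le_div_iff₀ hcpos]; linarith
        rw [add_div] at h5
        linarith

/-- **Maximum principle** for `Phi ∘ H`. -/
lemma mp {H : ℂ → ℂ} (hH : ∀ t, 1 < ‖t‖ → DifferentiableAt ℂ H t) {B : ℝ} (hB : 1 ≤ B)
    (h1 : ∀ ε > 0, ∃ r > 1, ∀ t, 1 < ‖t‖ → ‖t‖ < r → Phi K f (H t) ≤ B + ε)
    (h2 : ∃ T C : ℝ, ∀ t, T ≤ ‖t‖ → Phi K f (H t) ≤ B * ‖t‖ + C) :
    ∀ t, 1 < ‖t‖ → Phi K f (H t) ≤ B * ‖t‖ := by
  classical
  intro t0 ht0
  by_contra hcon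
  push Not at hcon
  set F : ℂ → ℝ := fun t => Phi K f (H t) / ‖t‖ with hF
  have hnormpos : ∀ {t : ℂ}, 1 < ‖t‖ → 0 < ‖t‖ := fun ht => lt_trans one_pos ht
  have hF0 : B < F t0 := by
    rw [hF]; simp only; rw [lt_div_iff₀ (hnormpos ht0)]; exact hcon
  set ε := (F t0 - B) / 2 with hε
  have hεpos : 0 < ε := by rw [hε]; linarith
  have hF0' : B + ε < F t0 := by rw [hε]; linarith
  obtain ⟨r, hr, hr1⟩ := h1 ε hεpos
  obtain ⟨T, C, hT⟩ := h2
  -- the compact annulus
  set T' := max (max T (r + 1)) (|C| / ε + 1) with hT'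
  have hT'T : T ≤ T' := (le_max_left _ _).trans (le_max_left _ _)
  have hT'r : r + 1 ≤ T' := (le_max_right _ _).trans (le_max_left _ _)
  have hT'C : |C| / ε + 1 ≤ T' := le_max_right _ _
  set A : Set ℂ := {t | r ≤ ‖t‖ ∧ ‖t‖ ≤ T'} with hA
  have hAc : IsCompact A := by
    apply Metric.isCompact_of_isClosed_isBounded
    · exact (isClosed_le continuous_const continuous_norm).inter
        (isClosed_le continuous_norm continuous_const)
    · refine (Metric.isBounded_closedBall (x := (0 : ℂ)) (r := T')).subset ?_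
      intro z hz
      rw [mem_closedBall_zero_iff]
      exact hz.2
  have hA1 : ∀ {t : ℂ}, t ∈ A → 1 < ‖t‖ := fun ht => lt_of_lt_of_le hr ht.1
  -- outside the annulus `F` is small
  have hout : ∀ t, 1 < ‖t‖ → B + ε < F t → t ∈ A := by
    intro t ht hFt
    constructor
    · by_contra hlt
      push Not at hlt
      have h3 := hr1 t ht hlt
      have h4 : F t ≤ B + ε := by
        rw [hF]; simp only
        rw [div_le_iff₀ (hnormpos ht)]
        have : 0 ≤ B + ε := by linarith
        nlinarith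
      linarith
    · by_contra hlt
      push Not at hlt
      have h3 := hT t (hT'T.trans hlt.le)
      have h5 : |C| / ε < ‖t‖ := by linarith
      have h6 : |C| < ε * ‖t‖ := by
        rwa [div_lt_iff₀' hεpos] at h5
      have h7 : C ≤ |C| := le_abs_self C
      have h4 : F t ≤ B + ε := by
        rw [hF]; simp only
        rw [div_le_iff₀ (hnormpos ht)]
        nlinarith
      linarith
  have hF_cont : ContinuousOn F A := by
    intro t ht
    have ht1 := hA1 ht
    have hc1 : ContinuousAt (fun t => Phi K f (H t)) t :=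
      h.continuous_Phi.continuousAt.comp (hH t ht1).continuousAt
    have hc2 : ContinuousAt (fun t : ℂ => ‖t‖) t := continuous_norm.continuousAt
    exact (hc1.div hc2 (hnormpos ht1).ne').continuousWithinAt
  have ht0A : t0 ∈ A := hout t0 ht0 hF0'
  obtain ⟨t1, ht1A, ht1max⟩ := hAc.exists_isMaxOn ⟨t0, ht0A⟩ hF_cont
  have hF1 : F t0 ≤ F t1 := ht1max ht0A
  -- global maximum
  have hglob : ∀ t, 1 < ‖t‖ → F t ≤ F t1 := by
    intro t ht
    by_cases hlt : B + ε < F t
    · exact ht1max (hout t ht hlt)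
    · push Not at hlt
      linarith
  -- set of maximisers and a maximiser of maximal norm
  set S : Set ℂ := A ∩ F ⁻¹' {F t1} with hS
  have hSc : IsCompact S := by
    have : IsClosed S := by
      have hclosedA : IsClosed A := hAc.isClosed
      exact hF_cont.preimage_isClosed_of_isClosed hclosedA isClosed_singleton
    exact hAc.of_isClosed_subset this inter_subset_left
  obtain ⟨t2, ht2S, ht2max⟩ := hSc.exists_isMaxOn ⟨t1, ht1A, rfl⟩
    (continuous_norm.continuousOn (s := S))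
  have ht2A : t2 ∈ A := ht2S.1
  have ht21 : 1 < ‖t2‖ := hA1 ht2A
  have hFt2 : F t2 = F t1 := ht2S.2
  -- `H t2 ∉ K`
  have hBF : B + ε < F t2 := by rw [hFt2]; linarith
  have hHt2 : H t2 ∉ K := by
    intro hK
    have : F t2 = 1 / ‖t2‖ := by
      rw [hF]; simp only; rw [h.Phi_of_mem hK]
    have h3 : 1 / ‖t2‖ < 1 := by
      rw [div_lt_one (hnormpos ht21)]; exact ht21
    rw [this] at hBF
    linarith
  -- holomorphic function with modulus `F`
  set g : ℂ → ℂ := fun t => phi f (H t) / t with hg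
  have hHc : ContinuousAt H t2 := (hH t2 ht21).continuousAt
  have hHev : ∀ᶠ t in 𝓝 t2, H t ∉ K :=
    hHc.eventually (h.Kc.isClosed.isOpen_compl.mem_nhds hHt2)
  have hev1 : ∀ᶠ t in 𝓝 t2, 1 < ‖t‖ :=
    continuous_norm.continuousAt.eventually (lt_mem_nhds ht21)
  have hgF : ∀ᶠ t in 𝓝 t2, ‖g t‖ = F t := by
    filter_upwards [hHev] with t ht
    simp only [hg, hF, norm_div]
    rw [h.Phi_of_notMem ht]
  have hgd : ∀ᶠ t in 𝓝 t2, DifferentiableAt ℂ g t := by
    filter_upwards [hHev, hev1] with t ht ht1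
    have h4 : DifferentiableAt ℂ (fun t => phi f (H t)) t :=
      (h.differentiableAt_phi ht).comp t (hH t ht1)
    exact h4.div differentiableAt_id (h.t_ne_zero ht1)
  have hmax : IsLocalMax (norm ∘ g) t2 := by
    filter_upwards [hgF, hev1] with t ht ht1
    simp only [Function.comp]
    rw [ht, hgF.self_of_nhds, hFt2]
    exact hglob t ht1
  have hconst := Complex.eventually_eq_of_isLocalMax_norm hgd hmax
  have hFconst : ∀ᶠ t in 𝓝 t2, F t = F t2 := by
    filter_upwards [hconst, hgF] with t ht ht'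
    rw [← ht', ht, hgF.self_of_nhds]
  -- a point of larger norm
  have hseq : Tendsto (fun δ : ℝ => ((1 + δ : ℝ) : ℂ) * t2) (𝓝[>] 0) (𝓝 t2) := by
    have : Tendsto (fun δ : ℝ => ((1 + δ : ℝ) : ℂ) * t2) (𝓝 0) (𝓝 (((1 + 0 : ℝ) : ℂ) * t2)) := by
      apply Continuous.tendsto
      fun_prop
    simp only [add_zero, ofReal_one, one_mul] at this
    exact this.mono_left nhdsWithin_le_nhds
  have hev2 := (hseq.eventually (hFconst.and hev1)).and (self_mem_nhdsWithin : Ioi (0:ℝ) ∈ 𝓝[>] 0)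
  obtain ⟨δ, ⟨hδ1, hδ2⟩, hδ⟩ := hev2.exists
  have hδ' : (0 : ℝ) < δ := hδ
  set t3 := ((1 + δ : ℝ) : ℂ) * t2 with ht3
  have hn3 : ‖t3‖ = (1 + δ) * ‖t2‖ := by
    rw [ht3, norm_mul, Complex.norm_real, Real.norm_eq_abs, abs_of_pos (by linarith)]
  have ht3A : t3 ∈ A := hout t3 hδ2 (by rw [hδ1]; exact hBF)
  have ht3S : t3 ∈ S := ⟨ht3A, by show F t3 = F t1; rw [hδ1, hFt2]⟩
  have : ‖t3‖ ≤ ‖t2‖ := ht2max ht3S
  rw [hn3] at this
  have hpos := hnormpos ht21
  nlinarith

end RM

end Crest.Agent.CrouzeixT.Level
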