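import Crest.Agent.CrouzeixT.LevelB

/-!
# Convexity of the level curves of the exterior map and `exists_convexExtMap`.
-/

open Complex Filter Metric Set Topology
open scoped Real ComplexConjugate

namespace Crest.Agent.CrouzeixT.Level

variable {K : Set ℂ} {f : ℂ → ℂ}

namespace RM

variable (h : RM K f)
include h

lemma exists_near_K {δ : ℝ} (hδ : 0 < δ) :
    ∃ r : ℝ, 1 < r ∧ ∀ t, 1 < ‖t‖ → ‖t‖ < r → ∃ z ∈ K, ‖G K f t - z‖ < δ := by
  obtain ⟨r, hr, hr'⟩ := h.exists_sublevel_subset (isOpen_thickening (δ := δ) (E := K))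
    (self_subset_thickening hδ K)
  refine ⟨r, hr, fun t ht htr => ?_⟩
  have := hr' (G K f t) (by rw [h.Phi_G ht]; exact htr)
  rw [Metric.mem_thickening_iff] at this
  obtain ⟨z, hz, hd⟩ := this
  exact ⟨z, hz, by rwa [dist_eq_norm] at hd⟩

lemma midpoint_mem {x y : ℂ} (hx : x ∈ K) (hy : y ∈ K) : (x + y) / 2 ∈ K := by
  have := h.Kconv hx hy (by norm_num : (0:ℝ) ≤ 1/2) (by norm_num : (0:ℝ) ≤ 1/2) (by norm_num)
  convert this using 1
  simp only [Complex.real_smul]
  push_cast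
  ring

/-- Step 1 of the convexity argument. -/
lemma step1 {z1 : ℂ} (hz1 : z1 ∈ K) {t : ℂ} (ht : 1 < ‖t‖) :
    Phi K f ((z1 + G K f t) / 2) ≤ ‖t‖ := by
  obtain ⟨c, c0, hc, hlim⟩ := h.exists_expansion
  obtain ⟨T, C, hT1, hC0, hG, hPhi⟩ := h.exists_growth hc hlim
  have hcpos : 0 < ‖c‖ := norm_pos_iff.mpr hc
  have := h.mp (H := fun t => (z1 + G K f t) / 2) (B := 1)
    (fun t ht => ((differentiableAt_const _).add (h.differentiableAt_G ht)).div_const _)
    le_rfl ?_ ?_ t ht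
  · simpa using this
  · intro ε hε
    have hVopen : IsOpen {z | Phi K f z < 1 + ε} :=
      isOpen_lt h.continuous_Phi continuous_const
    have hKV : K ⊆ {z | Phi K f z < 1 + ε} := by
      intro z hz
      change Phi K f z < 1 + ε
      rw [h.Phi_of_mem hz]; linarith
    obtain ⟨δ, hδ, hsub⟩ := h.Kc.exists_thickening_subset_open hVopen hKV
    obtain ⟨r, hr, hr'⟩ := h.exists_near_K hδ
    refine ⟨r, hr, fun t ht htr => ?_⟩
    obtain ⟨z2, hz2, hd⟩ := hr' t ht htr
    have hm : (z1 + z2) / 2 ∈ K := h.midpoint_mem hz1 hz2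
    have hmem : (z1 + G K f t) / 2 ∈ thickening δ K := by
      rw [Metric.mem_thickening_iff]
      refine ⟨_, hm, ?_⟩
      rw [dist_eq_norm]
      have : (z1 + G K f t) / 2 - (z1 + z2) / 2 = (G K f t - z2) / 2 := by ring
      rw [this, norm_div]
      simp only [Complex.norm_ofNat]
      linarith [norm_nonneg (G K f t - z2)]
    exact (hsub hmem).le
  · refine ⟨T, (‖z1‖ + C) / (2 * ‖c‖) + C, fun t ht => ?_⟩
    have h1 := hPhi ((z1 + G K f t) / 2)
    have h2 := hG t ht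
    have h3 : ‖(z1 + G K f t) / 2‖ ≤ (‖z1‖ + ‖c‖ * ‖t‖ + C) / 2 := by
      rw [norm_div]
      simp only [Complex.norm_ofNat]
      have := norm_add_le z1 (G K f t)
      linarith
    have h4 : ‖(z1 + G K f t) / 2‖ / ‖c‖ ≤ ((‖z1‖ + ‖c‖ * ‖t‖ + C) / 2) / ‖c‖ :=
      div_le_div_of_nonneg_right h3 hcpos.le
    have h5 : ((‖z1‖ + ‖c‖ * ‖t‖ + C) / 2) / ‖c‖ = (‖z1‖ + C) / (2 * ‖c‖) + ‖t‖ / 2 := by
      field_simp
      ring
    have h6 : 0 ≤ ‖t‖ := norm_nonneg t
    simp only [one_mul]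
    linarith

/-- Step 2 of the convexity argument. -/
lemma step2 {t1 t2 : ℂ} (ht1 : 1 < ‖t1‖) (h12 : ‖t1‖ ≤ ‖t2‖) :
    Phi K f ((G K f t1 + G K f t2) / 2) ≤ ‖t2‖ := by
  obtain ⟨c, c0, hc, hlim⟩ := h.exists_expansion
  obtain ⟨T, C, hT1, hC0, hG, hPhi⟩ := h.exists_growth hc hlim
  have hcpos : 0 < ‖c‖ := norm_pos_iff.mpr hc
  have ht10 := h.t_ne_zero ht1
  have ht1pos : 0 < ‖t1‖ := norm_pos_iff.mpr ht10
  set lam := t2 / t1 with hlam
  have hlamn : ‖lam‖ = ‖t2‖ / ‖t1‖ := by rw [hlam, norm_div]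
  have hlam1 : 1 ≤ ‖lam‖ := by
    rw [hlamn, one_le_div₀ ht1pos]; exact h12
  have hlampos : 0 < ‖lam‖ := by linarith
  have hmul : ∀ t : ℂ, 1 < ‖t‖ → 1 < ‖lam * t‖ := by
    intro t ht
    rw [norm_mul]
    nlinarith
  have hlam_t1 : lam * t1 = t2 := by
    rw [hlam]; field_simp
  have := h.mp (H := fun t => (G K f t + G K f (lam * t)) / 2) (B := ‖lam‖)
    (fun t ht => by
      have hd : DifferentiableAt ℂ (fun t => G K f (lam * t)) t :=
        (h.differentiableAt_G (hmul t ht)).comp t ((differentiableAt_const _).mul differentiableAt_id)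
      exact ((h.differentiableAt_G ht).add hd).div_const _)
    hlam1 ?_ ?_ t1 ht1
  · simp only [hlam_t1] at this
    have e : ‖lam‖ * ‖t1‖ = ‖t2‖ := by rw [hlamn]; field_simp
    rwa [e] at this
  · intro ε hε
    -- bounded region and uniform continuity
    obtain ⟨M, hM⟩ := h.exists_norm_le_of_Phi_le (2 * ‖lam‖)
    have hucont : UniformContinuousOn (Phi K f) (closedBall 0 M) :=
      (isCompact_closedBall _ _).uniformContinuousOn_of_continuous h.continuous_Phi.continuousOn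
    rw [Metric.uniformContinuousOn_iff] at hucont
    obtain ⟨δ, hδ, hδ'⟩ := hucont (ε / 2) (by linarith)
    obtain ⟨r1, hr1, hr1'⟩ := h.exists_near_K hδ
    refine ⟨min (min r1 2) (1 + ε / (2 * ‖lam‖)),
      lt_min (lt_min hr1 (by norm_num)) (by have : 0 < ε / (2 * ‖lam‖) := by positivity
                                            linarith), fun t ht htr => ?_⟩
    have htr1 : ‖t‖ < r1 := lt_of_lt_of_le htr ((min_le_left _ _).trans (min_le_left _ _))
    have htr2 : ‖t‖ < 2 := lt_of_lt_of_le htr ((min_le_left _ _).trans (min_le_right _ _))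
    have htr3 : ‖t‖ < 1 + ε / (2 * ‖lam‖) := lt_of_lt_of_le htr (min_le_right _ _)
    obtain ⟨z2, hz2, hd⟩ := hr1' t ht htr1
    have hlt := hmul t ht
    have hb1 : ‖G K f t‖ ≤ M := hM _ (by rw [h.Phi_G ht]; nlinarith)
    have hb2 : ‖G K f (lam * t)‖ ≤ M := hM _ (by
      rw [h.Phi_G hlt, norm_mul]; nlinarith)
    have hb3 : ‖z2‖ ≤ M := hM _ (by rw [h.Phi_of_mem hz2]; nlinarith)
    have hx : (G K f t + G K f (lam * t)) / 2 ∈ closedBall (0 : ℂ) M := by
      rw [mem_closedBall_zero_iff, norm_div]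
      simp only [Complex.norm_ofNat]
      have := norm_add_le (G K f t) (G K f (lam * t))
      linarith
    have hy : (z2 + G K f (lam * t)) / 2 ∈ closedBall (0 : ℂ) M := by
      rw [mem_closedBall_zero_iff, norm_div]
      simp only [Complex.norm_ofNat]
      have := norm_add_le z2 (G K f (lam * t))
      linarith
    have hxy : dist ((G K f t + G K f (lam * t)) / 2) ((z2 + G K f (lam * t)) / 2) < δ := by
      rw [dist_eq_norm]
      have : (G K f t + G K f (lam * t)) / 2 - (z2 + G K f (lam * t)) / 2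
          = (G K f t - z2) / 2 := by ring
      rw [this, norm_div]
      simp only [Complex.norm_ofNat]
      linarith [norm_nonneg (G K f t - z2)]
    have h1 := hδ' _ hx _ hy hxy
    rw [Real.dist_eq] at h1
    have h2 := (abs_lt.mp h1).2
    have h3 := h.step1 hz2 hlt
    rw [norm_mul] at h3
    have h4 : ‖lam‖ * ‖t‖ ≤ ‖lam‖ + ε / 2 := by
      have h5 : ‖lam‖ * ‖t‖ ≤ ‖lam‖ * (1 + ε / (2 * ‖lam‖)) :=
        mul_le_mul_of_nonneg_left htr3.le hlampos.le
      have h6 : ‖lam‖ * (1 + ε / (2 * ‖lam‖)) = ‖lam‖ + ε / 2 := by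
        field_simp
      linarith
    linarith
  · refine ⟨T, C / ‖c‖ + C, fun t ht => ?_⟩
    have ht' : T ≤ ‖lam * t‖ := by
      rw [norm_mul]
      have : 0 ≤ ‖t‖ := norm_nonneg t
      nlinarith
    have h1 := hPhi ((G K f t + G K f (lam * t)) / 2)
    have h2 := hG t ht
    have h2' := hG _ ht'
    rw [norm_mul] at h2'
    have h3 : ‖(G K f t + G K f (lam * t)) / 2‖ ≤
        (‖c‖ * ‖t‖ + C + (‖c‖ * (‖lam‖ * ‖t‖) + C)) / 2 := by
      rw [norm_div]
      simp only [Complex.norm_ofNat]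
      have := norm_add_le (G K f t) (G K f (lam * t))
      linarith
    have h4 := div_le_div_of_nonneg_right h3 hcpos.le
    have h5 : (‖c‖ * ‖t‖ + C + (‖c‖ * (‖lam‖ * ‖t‖) + C)) / 2 / ‖c‖
        = (1 + ‖lam‖) * ‖t‖ / 2 + C / ‖c‖ := by
      field_simp
      ring
    have h6 : 0 ≤ ‖t‖ := norm_nonneg t
    have h7 : (1 + ‖lam‖) * ‖t‖ / 2 ≤ ‖lam‖ * ‖t‖ := by nlinarith
    linarith

/-- Sublevel sets are midpoint convex. -/
lemma Phi_midpoint {R : ℝ} (hR : 1 ≤ R) {x y : ℂ} (hx : Phi K f x ≤ R) (hy : Phi K f y ≤ R) :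
    Phi K f ((x + y) / 2) ≤ R := by
  by_cases hxK : x ∈ K
  · by_cases hyK : y ∈ K
    · rw [h.Phi_of_mem (h.midpoint_mem hxK hyK)]; exact hR
    · have h1 := h.norm_phi_gt hyK
      have h2 := h.step1 hxK h1
      rw [h.G_phi hyK] at h2
      rw [h.Phi_of_notMem hyK] at hy
      linarith
  · have h1x := h.norm_phi_gt hxK
    rw [h.Phi_of_notMem hxK] at hx
    by_cases hyK : y ∈ K
    · have h2 := h.step1 hyK h1x
      rw [h.G_phi hxK, add_comm] at h2
      linarith
    · have h1y := h.norm_phi_gt hyK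
      rw [h.Phi_of_notMem hyK] at hy
      rcases le_total ‖phi f x‖ ‖phi f y‖ with hle | hle
      · have h2 := h.step2 h1x hle
        rw [h.G_phi hxK, h.G_phi hyK] at h2
        linarith
      · have h2 := h.step2 h1y hle
        rw [h.G_phi hxK, h.G_phi hyK, add_comm] at h2
        linarith

/-- **Support inequality** on the level curve. -/
lemma supp_ineq {t : ℂ} (ht : 1 < ‖t‖) {z : ℂ} (hz : Phi K f z ≤ ‖t‖) :
    0 ≤ ((starRingEnd ℂ) (t * deriv (G K f) t) * (G K f t - z)).re := by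
  set σ := G K f t with hσ
  have hσK : σ ∉ K := h.G_notMem ht
  have hphid := (h.differentiableAt_phi hσK).hasDerivAt
  set d := deriv (phi f) σ with hd
  have hGd := (h.differentiableAt_G ht).hasDerivAt
  set G' := deriv (G K f) t with hG'
  -- `d * G' = 1`
  have hdG : d * G' = 1 := by
    have h1 : HasDerivAt (fun τ => phi f (G K f τ)) (d * G') t :=
      HasDerivAt.comp (h₂ := phi f) (h := G K f) t hphid hGd
    have h2 : (fun τ => phi f (G K f τ)) =ᶠ[𝓝 t] fun τ => τ := by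
      filter_upwards [continuous_norm.continuousAt.eventually (lt_mem_nhds ht)] with τ hτ
      exact h.phi_G hτ
    have h3 : HasDerivAt (fun τ => phi f (G K f τ)) 1 t := (hasDerivAt_id t).congr_of_eventuallyEq h2
    exact h1.unique h3
  set w := z - σ with hw
  -- the real curve
  have he : HasDerivAt (fun ξ : ℂ => phi f (σ + ξ * w)) (d * w) ((0 : ℝ) : ℂ) := by
    have h1 : HasDerivAt (fun ξ : ℂ => σ + ξ * w) w ((0 : ℝ) : ℂ) := by
      simpa using ((hasDerivAt_id ((0 : ℝ) : ℂ)).mul_const w).const_add σ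
    have h2 : HasDerivAt (phi f) d (σ + ((0 : ℝ) : ℂ) * w) := by
      simpa using hphid
    exact HasDerivAt.comp (h₂ := phi f) (h := fun ξ : ℂ => σ + ξ * w) ((0 : ℝ) : ℂ) h2 h1
  have hr := he.comp_ofReal
  have hq := hr.norm_sq
  have hphi0 : phi f (σ + ((0 : ℝ) : ℂ) * w) = t := by
    simp [hσ, h.phi_G ht]
  rw [hphi0, Complex.inner] at hq
  -- values along the dyadic sequence
  have hval : ∀ n : ℕ, Phi K f (σ + (((1 / 2 : ℝ) ^ n : ℝ) : ℂ) * w) ≤ ‖t‖ := by
    intro n
    induction n with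
    | zero =>
      simp only [pow_zero, ofReal_one, one_mul]
      rw [hw]
      simpa using hz
    | succ n ih =>
      have h0 : Phi K f σ ≤ ‖t‖ := by rw [hσ, h.Phi_G ht]
      have h1 := h.Phi_midpoint ht.le h0 ih
      convert h1 using 2
      push_cast
      ring
  have hseq0 : Tendsto (fun n : ℕ => (1 / 2 : ℝ) ^ n) atTop (𝓝[≠] 0) := by
    refine tendsto_nhdsWithin_iff.mpr ⟨?_, Eventually.of_forall fun n => ?_⟩
    · exact tendsto_pow_atTop_nhds_zero_of_lt_one (by norm_num) (by norm_num)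
    · exact pow_ne_zero n (by norm_num)
  have hslope := (hasDerivAt_iff_tendsto_slope_zero.mp hq).comp hseq0
  have hnot : ∀ᶠ n : ℕ in atTop, σ + (((1 / 2 : ℝ) ^ n : ℝ) : ℂ) * w ∉ K := by
    have hc : Tendsto (fun n : ℕ => σ + (((1 / 2 : ℝ) ^ n : ℝ) : ℂ) * w) atTop (𝓝 σ) := by
      have h1 : Tendsto (fun n : ℕ => (1 / 2 : ℝ) ^ n) atTop (𝓝 0) :=
        tendsto_pow_atTop_nhds_zero_of_lt_one (by norm_num) (by norm_num)
      have h2 : Tendsto (fun n : ℕ => (((1 / 2 : ℝ) ^ n : ℝ) : ℂ)) atTop (𝓝 ((0 : ℝ) : ℂ)) :=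
        continuous_ofReal.continuousAt.tendsto.comp h1
      have h3 := (h2.mul_const w).const_add σ
      simpa using h3
    exact hc.eventually (h.Kc.isClosed.isOpen_compl.mem_nhds hσK)
  have hle0 : 2 * (d * w * (starRingEnd ℂ) t).re ≤ 0 := by
    refine le_of_tendsto hslope ?_
    filter_upwards [hnot] with n hn
    simp only [Function.comp, smul_eq_mul, zero_add]
    have hpos : (0 : ℝ) < (1 / 2 : ℝ) ^ n := by positivity
    refine mul_nonpos_of_nonneg_of_nonpos (by positivity) ?_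
    have h1 := hval n
    rw [h.Phi_of_notMem hn] at h1
    simp only [ofReal_zero, zero_mul, add_zero]
    have h0 : phi f σ = t := h.phi_G ht
    rw [h0]
    have h2 : ‖phi f (σ + (((1 / 2 : ℝ) ^ n : ℝ) : ℂ) * w)‖ ^ 2 ≤ ‖t‖ ^ 2 := by
      gcongr
    linarith
  -- algebra
  have halg : (starRingEnd ℂ) (t * G') * (σ - z)
      = -((normSq G' : ℝ) : ℂ) * (d * w * (starRingEnd ℂ) t) := by
    rw [← Complex.mul_conj]
    simp only [map_mul]
    have : (σ - z) = - w := by rw [hw]; ring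
    rw [this]
    linear_combination ((starRingEnd ℂ) G' * w * (starRingEnd ℂ) t) * hdG
  rw [halg]
  have h1 : 0 ≤ normSq G' := normSq_nonneg _
  have : (-((normSq G' : ℝ) : ℂ) * (d * w * (starRingEnd ℂ) t)).re
      = - (normSq G' * (d * w * (starRingEnd ℂ) t).re) := by
    rw [neg_mul, neg_re, Complex.re_ofReal_mul]
  rw [this]
  nlinarith

end RM

/-- Scaling tends to infinity. -/
lemma tendsto_mul_cobounded {R : ℝ} (hR : 0 < R) :
    Tendsto (fun t : ℂ => (R : ℂ) * t) (Bornology.cobounded ℂ) (Bornology.cobounded ℂ) := by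
  rw [← tendsto_norm_atTop_iff_cobounded]
  have h1 : Tendsto (fun t : ℂ => R * ‖t‖) (Bornology.cobounded ℂ) atTop :=
    Tendsto.const_mul_atTop hR tendsto_norm_cobounded_atTop
  refine h1.congr fun t => ?_
  rw [norm_mul, Complex.norm_real, Real.norm_eq_abs, abs_of_pos hR]

theorem exists_convexExtMap_of_RM (h : RM K f) {V : Set ℂ} (hV : IsOpen V) (hKV : K ⊆ V) :
    ∃ G₁ r0 c c0, ConvexExtMap K G₁ r0 c c0 ∧ ∀ t, ‖t‖ = 1 → G₁ t ∈ V := by
  obtain ⟨c, c0, hc, hlim⟩ := h.exists_expansion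
  obtain ⟨r, hr, hrV⟩ := h.exists_sublevel_subset hV hKV
  set R := (1 + r) / 2 with hRdef
  have hR1 : 1 < R := by rw [hRdef]; linarith
  have hRr : R < r := by rw [hRdef]; linarith
  have hRpos : 0 < R := by linarith
  have hRC : (R : ℂ) ≠ 0 := by exact_mod_cast hRpos.ne'
  have hnorm : ∀ t : ℂ, ‖(R : ℂ) * t‖ = R * ‖t‖ := by
    intro t
    rw [norm_mul, Complex.norm_real, Real.norm_eq_abs, abs_of_pos hRpos]
  have hout : ∀ t : ℂ, R⁻¹ < ‖t‖ → 1 < ‖(R : ℂ) * t‖ := by
    intro t ht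
    rw [hnorm]
    have := mul_lt_mul_of_pos_left ht hRpos
    rwa [mul_inv_cancel₀ hRpos.ne'] at this
  have hderiv : ∀ t : ℂ, R⁻¹ < ‖t‖ →
      t * deriv (fun t => G K f ((R : ℂ) * t)) t = ((R : ℂ) * t) * deriv (G K f) ((R : ℂ) * t) := by
    intro t ht
    have h1 : HasDerivAt (fun t : ℂ => (R : ℂ) * t) (R : ℂ) t := by
      simpa using (hasDerivAt_id t).const_mul (R : ℂ)
    have h2 := (h.differentiableAt_G (hout t ht)).hasDerivAt.comp t h1
    have h3 : deriv (fun t => G K f ((R : ℂ) * t)) t = deriv (G K f) ((R : ℂ) * t) * (R : ℂ) :=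
      h2.deriv
    rw [h3]
    ring
  have hone : ∀ t : ℂ, ‖t‖ = 1 → R⁻¹ < ‖t‖ := by
    intro t ht
    rw [ht]
    exact inv_lt_one_of_one_lt₀ hR1
  refine ⟨fun t => G K f ((R : ℂ) * t), R⁻¹, c * R, c0, ?_, ?_⟩
  · refine
      { r0_nonneg := by positivity
        r0_lt := inv_lt_one_of_one_lt₀ hR1
        diff := ?_
        inj := ?_
        c_ne := mul_ne_zero hc hRC
        lim := ?_
        out := ?_
        supp_K := ?_
        supp_curve := ?_ }
    · intro t ht
      have h1 : DifferentiableAt ℂ (fun t : ℂ => (R : ℂ) * t) t :=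
        (differentiableAt_const _).mul differentiableAt_id
      exact ((h.differentiableAt_G (hout t ht)).comp t h1).differentiableWithinAt
    · intro t ht t' ht' e
      have := h.injOn_G (hout t ht) (hout t' ht') e
      exact mul_left_cancel₀ hRC this
    · have := hlim.comp (tendsto_mul_cobounded hRpos)
      refine this.congr fun t => ?_
      simp only [Function.comp]
      ring_nf
    · intro t ht
      exact h.G_notMem (hout t ht)
    · intro t ht z hz
      rw [hderiv t (hone t ht)]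
      refine h.supp_ineq (hout t (hone t ht)) ?_
      rw [h.Phi_of_mem hz, hnorm, ht, mul_one]
      exact hR1.le
    · intro t τ ht hτ
      rw [hderiv t (hone t ht)]
      refine h.supp_ineq (hout t (hone t ht)) ?_
      rw [h.Phi_G (hout τ (hone τ hτ)), hnorm, hnorm, ht, hτ]
  · intro t ht
    apply hrV
    rw [h.Phi_G (hout t (hone t ht)), hnorm, ht, mul_one]
    exact hRr

/-- Main theorem, relative to the Riemann mapping theorem for bounded star-shaped domains. -/
theorem exists_convexExtMap_of_rmt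
    (rmt : ∀ {U : Set ℂ}, IsOpen U → Bornology.IsBounded U → (0 : ℂ) ∈ U →
      StarConvex ℝ (0 : ℂ) U →
      ∃ f : ℂ → ℂ, DifferentiableOn ℂ f U ∧ InjOn f U ∧ f '' U = ball 0 1 ∧ f 0 = 0 ∧
        ∀ z ∈ U, deriv f z ≠ 0)
    {K : Set ℂ} (hKc : IsCompact K) (hKconv : Convex ℝ K)
    (h0 : (0 : ℂ) ∈ interior K) {V : Set ℂ} (hV : IsOpen V) (hKV : K ⊆ V) :
    ∃ G r0 c c0, ConvexExtMap K G r0 c c0 ∧ ∀ t, ‖t‖ = 1 → G t ∈ V := by
  obtain ⟨f, h1, h2, h3, h4, h5⟩ := rmt (isOpen_invDom hKc) (isBounded_invDom h0)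
    (zero_mem_invDom K) (starConvex_invDom hKconv (interior_subset h0))
  exact exists_convexExtMap_of_RM ⟨hKc, hKconv, h0, h1, h2, h3, h4, h5⟩ hV hKV

end Crest.Agent.CrouzeixT.Level
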