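import Crest.Agent.CrouzeixT.KernelT

/-!
# The main lemma: `‖P_r(G)‖₂ ≤ ‖r‖₂`.
-/

open Complex Filter Metric Set Topology
open scoped Real ComplexConjugate

noncomputable section

namespace Crest.Agent.CrouzeixT

variable {K : Set ℂ} {G : ℂ → ℂ} {r : ℝ} {c c0 : ℂ}

/-- `e^{iθ}`. -/
abbrev eθ (θ : ℝ) : ℂ := exp ((θ : ℂ) * I)

lemma norm_eθ (θ : ℝ) : ‖eθ θ‖ = 1 := norm_exp_ofReal_mul_I θ

lemma continuous_eθ : Continuous eθ := by fun_prop

lemma cont_comp_eθ {f : ℂ → ℂ} (hf : ContinuousOn f (S r)) (hr : r < 1) :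
    Continuous (fun θ => f (eθ θ)) :=
  hf.comp_continuous continuous_eθ (fun θ => by
    show r < ‖eθ θ‖
    rw [norm_eθ]; exact hr)

lemma mean_congr {f g : ℂ → ℂ} (h : ∀ t, ‖t‖ = 1 → f t = g t) : mean f = mean g := by
  unfold mean
  congr 1
  apply intervalIntegral.integral_congr
  intro θ _
  exact h _ (norm_eθ θ)

lemma rmean_congr {f g : ℂ → ℝ} (h : ∀ t, ‖t‖ = 1 → f t = g t) : rmean f = rmean g := by
  unfold rmean
  congr 1
  apply intervalIntegral.integral_congr
  intro θ _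
  exact h _ (norm_eθ θ)

lemma mean_ofReal (f : ℂ → ℝ) : mean (fun t => (f t : ℂ)) = (rmean f : ℂ) := by
  unfold mean rmean
  rw [intervalIntegral.integral_ofReal]
  push_cast
  rfl

lemma mean_conj (f : ℂ → ℂ) : mean (fun t => conj (f t)) = conj (mean f) := by
  unfold mean
  have h2pi : (0:ℝ) ≤ 2 * π := by positivity
  rw [intervalIntegral.integral_of_le h2pi, intervalIntegral.integral_of_le h2pi, integral_conj]
  simp only [map_mul, map_inv₀, conj_ofReal]

/-! ## The contour identity -/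

namespace ConvexExtMap

variable (hG : ConvexExtMap K G r c c0)

include hG

lemma deriv_contOn : ContinuousOn (deriv G) (S r) :=
  (hG.diff.deriv (isOpen_S r)).continuousOn

/-- Integral of `S(G) G'` vanishes. -/
lemma circle_poly_deriv (Q : Polynomial ℂ) {ρ : ℝ} (hρ : r < ρ) :
    (∮ z in C(0, ρ), Q.eval (G z) * deriv G z) = 0 := by
  have hρ0 : 0 < ρ := hG.r0_pos.trans hρ
  have hS : ∀ z ∈ Metric.sphere (0:ℂ) ρ, r < ‖z‖ := by
    intro z hz
    have : ‖z‖ = ρ := by simpa using hz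
    rw [this]; exact hρ
  have hcontG : ContinuousOn G (Metric.sphere (0:ℂ) ρ) :=
    hG.diff.continuousOn.mono (fun z hz => hS z hz)
  have hcontD : ContinuousOn (deriv G) (Metric.sphere (0:ℂ) ρ) :=
    hG.deriv_contOn.mono (fun z hz => hS z hz)
  induction Q using Polynomial.induction_on' with
  | add p q hp hq =>
    have hint : ∀ p : Polynomial ℂ, CircleIntegrable (fun z => p.eval (G z) * deriv G z) 0 ρ := by
      intro p
      apply ContinuousOn.circleIntegrable hρ0.le
      exact (p.continuous.comp_continuousOn hcontG).mul hcontD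
    have : (fun z => (p + q).eval (G z) * deriv G z)
        = fun z => p.eval (G z) * deriv G z + q.eval (G z) * deriv G z := by
      funext z; rw [Polynomial.eval_add]; ring
    rw [this, circleIntegral.integral_add (hint p) (hint q), hp, hq, add_zero]
  | monomial n a =>
    have habs : |ρ| = ρ := abs_of_pos hρ0
    have := circleIntegral.integral_eq_zero_of_hasDerivWithinAt' (c := (0:ℂ)) (R := ρ)
      (f := fun z => a / (n + 1) * G z ^ (n + 1))
      (f' := fun z => (Polynomial.monomial n a).eval (G z) * deriv G z) (by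
        intro z hz
        rw [habs] at hz
        have hd : HasDerivAt G (deriv G z) z := (hG.diff.differentiableAt (S_mem_nhds (hS z hz))).hasDerivAt
        have h1 : HasDerivAt (fun z => a / (n + 1) * G z ^ (n + 1))
            (a / (n + 1) * (((n + 1 : ℕ) : ℂ) * G z ^ n * deriv G z)) z :=
          (hd.fun_pow (n + 1)).const_mul (a / (n + 1))
        refine HasDerivWithinAt.congr_deriv h1.hasDerivWithinAt ?_
        rw [Polynomial.eval_monomial]
        have hn : ((n : ℂ) + 1) ≠ 0 := by exact_mod_cast Nat.succ_ne_zero n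
        push_cast
        field_simp)
    exact this

/-- The main contour identity: `mean (τ ^ j R) = φ (t₀)`. -/
lemma mean_pow_RR {t₀ : ℂ} (ht₀ : ‖t₀‖ = 1) {j : ℕ} {F : Polynomial ℂ} {φ : ℂ → ℂ}
    (hφ : Ext r φ 0) (hF : ∀ t, r < ‖t‖ → F.eval (G t) = t ^ j + φ t) :
    mean (fun τ => τ ^ j * RR G t₀ τ) = φ t₀ := by
  have hr1 : r < 1 := hG.r0_lt
  have hr0 : 0 < r := hG.r0_pos
  have ht₀r : r < ‖t₀‖ := by rw [ht₀]; exact hr1
  have hR := hG.RR_ext ht₀r
  -- the annulus step
  have hann : (∮ z in C(0, (2:ℝ)), z⁻¹ * (z ^ j * RR G t₀ z))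
      = ∮ z in C(0, (1:ℝ)), z⁻¹ * (z ^ j * RR G t₀ z) := by
    have hd : DifferentiableOn ℂ (fun z => z ^ j * RR G t₀ z) (S r) :=
      (differentiableOn_id.pow j).mul hR.diff
    have := Complex.circleIntegral_sub_center_inv_smul_eq_of_differentiable_on_annulus_off_countable
      (c := (0:ℂ)) (r := 1) (R := 2) (f := fun z => z ^ j * RR G t₀ z) (s := ∅)
      one_pos (by norm_num) Set.countable_empty ?_ ?_
    · simpa using this
    · intro z hz
      have hz' : 1 ≤ ‖z‖ := by
        have := hz.2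
        simpa [Metric.mem_ball, dist_zero_right] using this
      exact (hd.continuousOn.continuousAt (S_mem_nhds (lt_of_lt_of_le hr1 hz'))).continuousWithinAt
    · intro z hz
      have hz' : 1 < ‖z‖ := by
        have := hz.1.2
        simpa [Metric.mem_closedBall, dist_zero_right] using this
      exact hd.differentiableAt (S_mem_nhds (hr1.trans hz'))
  have hone := circle_one_eq_mean (fun τ => τ ^ j * RR G t₀ τ)
  -- notation
  set Ψ : ℂ → ℂ := fun z => deriv G z / (G z - G t₀) with hΨdef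
  have hdiffΨ : ∀ z, 1 < ‖z‖ → G z - G t₀ ≠ 0 := by
    intro z hz h0
    have hne : z ≠ t₀ := by
      intro h; rw [h, ht₀] at hz; exact lt_irrefl _ hz
    exact hne (hG.inj (hr1.trans hz) ht₀r (sub_eq_zero.mp h0))
  have hzΨ : ∀ z, 1 < ‖z‖ → z * Ψ z = 1 + t₀ * (z - t₀)⁻¹ + RR G t₀ z := by
    intro z hz
    have hne : z ≠ t₀ := by
      intro h; rw [h, ht₀] at hz; exact lt_irrefl _ hz
    have hne' : z - t₀ ≠ 0 := sub_ne_zero.mpr hne
    have := hG.log_deriv_eq ht₀r (hr1.trans hz) hne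
    simp only [hΨdef]
    rw [mul_div_assoc'] 
    rw [this]
    field_simp
    ring
  have hΨext : Ext 1 (fun z => z * Ψ z) 1 := by
    have h1 : Ext 1 (fun z => 1 + t₀ * (z - t₀)⁻¹ + RR G t₀ z) (1 + t₀ * 0 + 0) :=
      ((Ext.const 1).add ((Ext.sub_inv (by rw [ht₀])).const_mul t₀)).add (hR.mono hr1.le)
    have h2 : (1 + t₀ * 0 + 0 : ℂ) = 1 := by ring
    rw [h2] at h1
    exact h1.congr hzΨ
  have hS2 : ∀ z ∈ Metric.sphere (0:ℂ) (2:ℝ), 1 < ‖z‖ := by
    intro z hz
    have : ‖z‖ = 2 := by simpa using hz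
    rw [this]; norm_num
  have hne2 : ∀ z ∈ Metric.sphere (0:ℂ) (2:ℝ), z ≠ 0 := by
    intro z hz h0
    have := hS2 z hz
    rw [h0, norm_zero] at this
    linarith
  have hneT : ∀ z ∈ Metric.sphere (0:ℂ) (2:ℝ), z - t₀ ≠ 0 := by
    intro z hz h0
    have hz1 := hS2 z hz
    rw [sub_eq_zero.mp h0, ht₀] at hz1
    exact lt_irrefl _ hz1
  have hcontG : ContinuousOn G (Metric.sphere (0:ℂ) (2:ℝ)) :=
    hG.diff.continuousOn.mono (fun z hz => hr1.trans (hS2 z hz))
  have hcontD : ContinuousOn (deriv G) (Metric.sphere (0:ℂ) (2:ℝ)) :=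
    hG.deriv_contOn.mono (fun z hz => hr1.trans (hS2 z hz))
  have hcontΨ : ContinuousOn Ψ (Metric.sphere (0:ℂ) (2:ℝ)) :=
    hcontD.div (hcontG.sub continuousOn_const) (fun z hz => hdiffΨ z (hS2 z hz))
  have hcontφ : ContinuousOn φ (Metric.sphere (0:ℂ) (2:ℝ)) :=
    hφ.continuousOn.mono (fun z hz => hr1.trans (hS2 z hz))
  have two_pos' : (0:ℝ) ≤ 2 := by norm_num
  -- The four integrals.
  have I1 : (∮ z in C(0, (2:ℝ)), Ψ z) = 2 * π * I := by
    have h1 := circle_inv_eq one_pos hΨext (by norm_num : (1:ℝ) < 2)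
    rw [mul_one] at h1
    rw [← h1]
    apply circleIntegral.integral_congr two_pos'
    intro z hz
    have := hne2 z hz
    simp only
    field_simp
  have I2 : (∮ z in C(0, (2:ℝ)), φ z * Ψ z) = 0 := by
    apply contour_zero one_pos ?_ (by norm_num : (1:ℝ) < 2)
    have h1 := (hφ.mono hr1.le).mul hΨext
    rw [zero_mul] at h1
    exact h1.congr (fun z _ => by ring)
  have I4 : (∮ z in C(0, (2:ℝ)), z ^ j * (z - t₀)⁻¹) = 2 * π * I * t₀ ^ j := by
    have h1 := Complex.circleIntegral_sub_inv_smul_of_differentiable_on_off_countable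
      (R := 2) (c := (0:ℂ)) (w := t₀) (f := fun z => z ^ j) (s := ∅) Set.countable_empty
      (by rw [Metric.mem_ball, dist_zero_right, ht₀]; norm_num)
      (by fun_prop) (fun x _ => by fun_prop)
    simp only [smul_eq_mul] at h1
    rw [← h1]
    apply circleIntegral.integral_congr two_pos'
    intro z _
    simp only
    ring
  -- divide `F - F(G t₀)` by `X - G t₀`
  have hdvd : (Polynomial.X - Polynomial.C (G t₀)) ∣ F - Polynomial.C (F.eval (G t₀)) := by
    rw [Polynomial.dvd_iff_isRoot]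
    simp
  obtain ⟨Q, hQ⟩ := hdvd
  have I3 := hG.circle_poly_deriv Q (hr1.trans (by norm_num : (1:ℝ) < 2))
  -- pointwise identity on the sphere
  have hpt : ∀ z ∈ Metric.sphere (0:ℂ) (2:ℝ), z⁻¹ * (z ^ j * RR G t₀ z)
      = F.eval (G t₀) * Ψ z + Q.eval (G z) * deriv G z - φ z * Ψ z - z ^ j * (z - t₀)⁻¹ := by
    intro z hz
    have hz1 := hS2 z hz
    have hz0 := hne2 z hz
    have hzT := hneT z hz
    have hGne := hdiffΨ z hz1
    have h1 := hzΨ z hz1
    have h2 : RR G t₀ z = z * Ψ z - 1 - t₀ * (z - t₀)⁻¹ := by rw [h1]; ring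
    have h3 : F.eval (G z) = F.eval (G t₀) + (G z - G t₀) * Q.eval (G z) := by
      have := congrArg (Polynomial.eval (G z)) hQ
      simp only [Polynomial.eval_sub, Polynomial.eval_C, Polynomial.eval_mul, Polynomial.eval_X]
        at this
      linear_combination this
    have h4 : z ^ j = F.eval (G z) - φ z := by
      rw [hF z (hr1.trans hz1)]; ring
    have h5 : (G z - G t₀) * Ψ z = deriv G z := by
      simp only [hΨdef]; field_simp
    have h6 : z⁻¹ * (z ^ j * (z * Ψ z - 1 - t₀ * (z - t₀)⁻¹))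
        = z ^ j * Ψ z - z ^ j * (z - t₀)⁻¹ := by
      field_simp
      ring
    rw [h2, h6]
    have h7 : z ^ j * Ψ z = F.eval (G t₀) * Ψ z + Q.eval (G z) * deriv G z - φ z * Ψ z := by
      rw [h4, h3, ← h5]; ring
    rw [h7]
  have hint1 : CircleIntegrable (fun z => F.eval (G t₀) * Ψ z) 0 2 :=
    ContinuousOn.circleIntegrable two_pos' (continuousOn_const.mul hcontΨ)
  have hint2 : CircleIntegrable (fun z => Q.eval (G z) * deriv G z) 0 2 :=
    ContinuousOn.circleIntegrable two_pos' ((Q.continuous.comp_continuousOn hcontG).mul hcontD)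
  have hint3 : CircleIntegrable (fun z => φ z * Ψ z) 0 2 :=
    ContinuousOn.circleIntegrable two_pos' (hcontφ.mul hcontΨ)
  have hint4 : CircleIntegrable (fun z : ℂ => z ^ j * (z - t₀)⁻¹) 0 2 :=
    ContinuousOn.circleIntegrable two_pos'
      ((by fun_prop : ContinuousOn (fun z : ℂ => z ^ j) _).mul
        ((continuousOn_id.sub continuousOn_const).inv₀ hneT))
  have htotal : (∮ z in C(0, (2:ℝ)), z⁻¹ * (z ^ j * RR G t₀ z))
      = F.eval (G t₀) * (2 * π * I) + 0 - 0 - 2 * π * I * t₀ ^ j := by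
    have hint12 : CircleIntegrable
        (fun z => F.eval (G t₀) * Ψ z + Q.eval (G z) * deriv G z) 0 2 := hint1.add hint2
    have hint123 : CircleIntegrable
        (fun z => F.eval (G t₀) * Ψ z + Q.eval (G z) * deriv G z - φ z * Ψ z) 0 2 :=
      hint12.sub hint3
    have I1' : (∮ z in C(0, (2:ℝ)), F.eval (G t₀) * Ψ z) = F.eval (G t₀) * (2 * π * I) := by
      rw [circleIntegral.integral_const_mul, I1]
    rw [circleIntegral.integral_congr two_pos' hpt]
    rw [circleIntegral.integral_sub hint123 hint4,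
      circleIntegral.integral_sub hint12 hint3,
      circleIntegral.integral_add hint1 hint2]
    rw [I1', I2, I3, I4]
  have hfinal : 2 * π * I * mean (fun τ => τ ^ j * RR G t₀ τ) = 2 * π * I * φ t₀ := by
    rw [← hone, ← hann, htotal, hF t₀ ht₀r]
    ring
  have hpi : (2 * π * I : ℂ) ≠ 0 := by
    simp [Real.pi_ne_zero, I_ne_zero]
  exact mul_left_cancel₀ hpi hfinal

/-- The kernel, as a function of the angle. -/
def kk (G : ℂ → ℂ) (t₀ : ℂ) (θ : ℝ) : ℝ := π⁻¹ * (1 / 2 + (RR G t₀ (eθ θ)).re)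

lemma kk_nonneg {t₀ : ℂ} (ht₀ : ‖t₀‖ = 1) (θ : ℝ) : 0 ≤ kk G t₀ θ :=
  mul_nonneg (by positivity) (hG.half_add_re_RR_nonneg ht₀ (norm_eθ θ))

lemma cont_RR {t₀ : ℂ} (ht₀ : ‖t₀‖ = 1) : Continuous (fun θ => RR G t₀ (eθ θ)) :=
  cont_comp_eθ (hG.RR_ext (by rw [ht₀]; exact hG.r0_lt)).continuousOn hG.r0_lt

lemma kk_cont {t₀ : ℂ} (ht₀ : ‖t₀‖ = 1) : Continuous (kk G t₀) := by
  have := hG.cont_RR ht₀
  unfold kk
  fun_prop

omit hG in
lemma integral_eq_mean (f : ℂ → ℂ) :
    (∫ θ in (0:ℝ)..2 * π, f (eθ θ)) = ((2 * π : ℝ) : ℂ) * mean f := by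
  unfold mean
  have hpi : ((2 * π : ℝ) : ℂ) ≠ 0 := by
    exact_mod_cast (by positivity : (2 * π : ℝ) ≠ 0)
  field_simp

lemma mean_RR {t₀ : ℂ} (ht₀ : ‖t₀‖ = 1) : mean (RR G t₀) = 0 :=
  (hG.RR_ext (by rw [ht₀]; exact hG.r0_lt)).mean_eq hG.r0_pos hG.r0_lt

lemma kk_int {t₀ : ℂ} (ht₀ : ‖t₀‖ = 1) : ∫ θ in (0:ℝ)..2 * π, kk G t₀ θ = 1 := by
  have hc := hG.cont_RR ht₀
  have h1 : (∫ θ in (0:ℝ)..2 * π, RR G t₀ (eθ θ)) = 0 := by
    rw [integral_eq_mean, hG.mean_RR ht₀, mul_zero]
  have h2 : (∫ θ in (0:ℝ)..2 * π, (RR G t₀ (eθ θ)).re) = 0 := by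
    have := intervalIntegral.intervalIntegral_eq_integral_uIoc
      (fun θ => RR G t₀ (eθ θ)) (0:ℝ) (2 * π) MeasureTheory.volume
    have h3 := Complex.reCLM.intervalIntegral_comp_comm
      (a := (0:ℝ)) (b := 2 * π) (μ := MeasureTheory.volume)
      (hc.intervalIntegrable _ _)
    simp only [reCLM_apply] at h3
    rw [h3, h1]; simp
  unfold kk
  have hcre : Continuous (fun θ => (RR G t₀ (eθ θ)).re) := continuous_re.comp hc
  rw [intervalIntegral.integral_const_mul, intervalIntegral.integral_add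
    (continuous_const.intervalIntegrable _ _)
    (hcre.intervalIntegrable _ _), h2]
  simp only [intervalIntegral.integral_const, sub_zero, smul_eq_mul, add_zero]
  have := Real.pi_pos
  field_simp

omit hG in
lemma ext_inv_pow (hr : 0 ≤ r) (n : ℕ) : Ext r (fun t => (t ^ n)⁻¹) (if n = 0 then 1 else 0) := by
  induction n with
  | zero => simpa using Ext.const (r := r) (1:ℂ)
  | succ n ih =>
    have h1 := ih.mul (Ext.inv_id hr)
    have h2 : (if n = 0 then (1:ℂ) else 0) * 0 = if n + 1 = 0 then 1 else 0 := by simp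
    rw [h2] at h1
    refine h1.congr (fun t _ => ?_)
    rw [pow_succ, mul_inv]

omit hG in
lemma conj_eq_inv_of_norm {t : ℂ} (ht : ‖t‖ = 1) : conj t = t⁻¹ := by
  rw [Complex.inv_def, normSq_eq_norm_sq, ht]; simp

omit hG in
lemma conj_pow_eq {t : ℂ} (ht : ‖t‖ = 1) (n : ℕ) : conj (t ^ n) = (t ^ n)⁻¹ := by
  rw [map_pow, conj_eq_inv_of_norm ht, inv_pow]

omit hG in
lemma mean_pow_eq_zero (hr0 : 0 < r) (hr1 : r < 1) {n : ℕ} (hn : n ≠ 0) :
    mean (fun t => t ^ n) = 0 := by
  have h1 := (ext_inv_pow hr0.le n).mean_eq hr0 hr1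
  rw [if_neg hn] at h1
  have h2 : mean (fun t => t ^ n) = mean (fun t => conj ((t ^ n)⁻¹)) := by
    apply mean_congr
    intro t ht
    rw [map_inv₀, conj_pow_eq ht, inv_inv]
  rw [h2, mean_conj, h1, map_zero]

/-- `K (τ ^ n) = φ_n`. -/
lemma integral_pow_kk {t₀ : ℂ} (ht₀ : ‖t₀‖ = 1) {n : ℕ} (hn : n ≠ 0) {F : Polynomial ℂ} {φ : ℂ → ℂ}
    (hφ : Ext r φ 0) (hF : ∀ t, r < ‖t‖ → F.eval (G t) = t ^ n + φ t) :
    (∫ θ in (0:ℝ)..2 * π, (eθ θ) ^ n * (kk G t₀ θ : ℂ)) = φ t₀ := by
  have hr0 := hG.r0_pos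
  have hr1 := hG.r0_lt
  have hc := hG.cont_RR ht₀
  have hR := hG.RR_ext (t₀ := t₀) (by rw [ht₀]; exact hr1)
  have hpow : Continuous (fun θ : ℝ => (eθ θ) ^ n) := continuous_eθ.pow n
  -- pointwise
  have hpt : ∀ θ : ℝ, (eθ θ) ^ n * (kk G t₀ θ : ℂ)
      = (π : ℂ)⁻¹ * ((1 / 2 : ℂ) * ((eθ θ) ^ n + (eθ θ) ^ n * RR G t₀ (eθ θ)
          + (eθ θ) ^ n * conj (RR G t₀ (eθ θ)))) := by
    intro θ
    have h1 : ((RR G t₀ (eθ θ)).re : ℂ) = (RR G t₀ (eθ θ) + conj (RR G t₀ (eθ θ))) / 2 := by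
      rw [Complex.add_conj]; push_cast; ring
    unfold kk
    push_cast
    rw [h1]
    ring
  simp_rw [hpt]
  have hcj : Continuous (fun θ => conj (RR G t₀ (eθ θ))) := continuous_conj.comp hc
  have hA : Continuous (fun θ => (eθ θ) ^ n * RR G t₀ (eθ θ)) := hpow.mul hc
  have hB : Continuous (fun θ => (eθ θ) ^ n * conj (RR G t₀ (eθ θ))) := hpow.mul hcj
  have hAB : Continuous (fun θ => (eθ θ) ^ n + (eθ θ) ^ n * RR G t₀ (eθ θ)) := hpow.add hA
  rw [intervalIntegral.integral_const_mul, intervalIntegral.integral_const_mul,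
    intervalIntegral.integral_add (hAB.intervalIntegrable _ _) (hB.intervalIntegrable _ _),
    intervalIntegral.integral_add (hpow.intervalIntegrable _ _) (hA.intervalIntegrable _ _)]
  have i1 : (∫ θ in (0:ℝ)..2 * π, (eθ θ) ^ n) = 0 := by
    rw [integral_eq_mean (fun t => t ^ n), mean_pow_eq_zero hr0 hr1 hn, mul_zero]
  have i2 : (∫ θ in (0:ℝ)..2 * π, (eθ θ) ^ n * RR G t₀ (eθ θ)) = ((2 * π : ℝ) : ℂ) * φ t₀ := by
    rw [integral_eq_mean (fun t => t ^ n * RR G t₀ t), hG.mean_pow_RR ht₀ hφ hF]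
  have i3 : (∫ θ in (0:ℝ)..2 * π, (eθ θ) ^ n * conj (RR G t₀ (eθ θ))) = 0 := by
    rw [integral_eq_mean (fun t => t ^ n * conj (RR G t₀ t))]
    have h1 : mean (fun t => t ^ n * conj (RR G t₀ t))
        = mean (fun t => conj ((t ^ n)⁻¹ * RR G t₀ t)) := by
      apply mean_congr
      intro t ht
      rw [map_mul, map_inv₀, conj_pow_eq ht, inv_inv]
    rw [h1, mean_conj]
    have h2 := ((ext_inv_pow hr0.le n).mul hR).mean_eq hr0 hr1
    rw [mul_zero] at h2
    rw [h2]; simp
  rw [i1, i2, i3]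
  have hpi : (π : ℂ) ≠ 0 := by exact_mod_cast Real.pi_ne_zero
  push_cast
  field_simp
  ring

omit hG in
/-- Continuity of `rePoly u` on the circle. -/
lemma cont_rePoly (u : Polynomial ℂ) : Continuous (fun θ => rePoly u (eθ θ)) := by
  unfold rePoly
  exact continuous_re.comp (u.continuous.comp continuous_eθ)

/-- The linear part of the main lemma. -/
lemma exists_P (u : Polynomial ℂ) : ∃ (P : Polynomial ℂ) (h : ℂ → ℂ), Ext r h 0 ∧
    (∀ t, ‖t‖ = 1 → P.eval (G t) = (rePoly u t : ℂ) + h t) ∧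
    ∀ t₀, ‖t₀‖ = 1 → (∫ θ in (0:ℝ)..2 * π, rePoly u (eθ θ) * kk G t₀ θ)
      = rePoly u t₀ + 2 * (h t₀).re := by
  have hr0 := hG.r0_pos
  have hr1 := hG.r0_lt
  induction u using Polynomial.induction_on' with
  | add p q hp hq =>
    obtain ⟨P₁, h₁, he₁, hP₁, hK₁⟩ := hp
    obtain ⟨P₂, h₂, he₂, hP₂, hK₂⟩ := hq
    refine ⟨P₁ + P₂, fun t => h₁ t + h₂ t, ?_, ?_, ?_⟩
    · have := he₁.add he₂
      rwa [add_zero] at this
    · intro t ht
      rw [Polynomial.eval_add, hP₁ t ht, hP₂ t ht]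
      simp only [rePoly, Polynomial.eval_add, add_re]
      push_cast
      ring
    · intro t₀ ht₀
      have hre : ∀ t, rePoly (p + q) t = rePoly p t + rePoly q t := by
        intro t; simp [rePoly]
      simp_rw [hre, add_mul]
      have hc1 : Continuous (fun θ => rePoly p (eθ θ) * kk G t₀ θ) :=
        (cont_rePoly p).mul (hG.kk_cont ht₀)
      have hc2 : Continuous (fun θ => rePoly q (eθ θ) * kk G t₀ θ) :=
        (cont_rePoly q).mul (hG.kk_cont ht₀)
      rw [intervalIntegral.integral_add (hc1.intervalIntegrable _ _) (hc2.intervalIntegrable _ _),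
        hK₁ t₀ ht₀, hK₂ t₀ ht₀]
      simp only [add_re]
      ring
  | monomial n a =>
    by_cases hn : n = 0
    · subst hn
      refine ⟨Polynomial.C (a.re : ℂ), fun _ => 0, Ext.const 0, ?_, ?_⟩
      · intro t _
        simp [rePoly]
      · intro t₀ ht₀
        have hre : ∀ t, rePoly (Polynomial.monomial 0 a) t = a.re := by
          intro t; simp [rePoly]
        simp_rw [hre]
        rw [intervalIntegral.integral_const_mul, hG.kk_int ht₀]
        simp
    · have hg := hG.gExt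
      set F := faber hr0 hG.c_ne hg n with hFdef
      set φ := faberExt hr0 hG.c_ne hg n with hφdef
      have hφ : Ext r φ 0 := faberExt_ext hr0 hG.c_ne hg n
      have hF : ∀ t, r < ‖t‖ → F.eval (G t) = t ^ n + φ t := fun t ht =>
        faber_eval hr0 hG.c_ne hg n ht
      refine ⟨Polynomial.C (a / 2) * F, fun t => (a / 2) * φ t - (conj a / 2) * (t ^ n)⁻¹, ?_, ?_, ?_⟩
      · have h1 := (hφ.const_mul (a / 2)).sub ((ext_inv_pow hr0.le n).const_mul (conj a / 2))
        rw [if_neg hn] at h1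
        simpa using h1
      · intro t ht
        have hrt : r < ‖t‖ := by rw [ht]; exact hr1
        rw [Polynomial.eval_mul, Polynomial.eval_C, hF t hrt]
        have h1 : ((rePoly (Polynomial.monomial n a) t : ℝ) : ℂ)
            = (a * t ^ n + conj (a * t ^ n)) / 2 := by
          rw [Complex.add_conj]
          simp [rePoly, Polynomial.eval_monomial]
        rw [h1, map_mul, conj_pow_eq ht]
        ring
      · intro t₀ ht₀
        have hrt : r < ‖t₀‖ := by rw [ht₀]; exact hr1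
        have hk := hG.integral_pow_kk ht₀ hn hφ hF
        have hcpow : Continuous (fun θ : ℝ => (eθ θ) ^ n * (kk G t₀ θ : ℂ)) :=
          (continuous_eθ.pow n).mul (continuous_ofReal.comp (hG.kk_cont ht₀))
        have h1 : (∫ θ in (0:ℝ)..2 * π, rePoly (Polynomial.monomial n a) (eθ θ) * kk G t₀ θ)
            = (a * ∫ θ in (0:ℝ)..2 * π, (eθ θ) ^ n * (kk G t₀ θ : ℂ)).re := by
          rw [← intervalIntegral.integral_const_mul]
          have hc2 : Continuous (fun θ : ℝ => a * ((eθ θ) ^ n * (kk G t₀ θ : ℂ))) :=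
            continuous_const.mul hcpow
          have h3 := Complex.reCLM.intervalIntegral_comp_comm
            (a := (0:ℝ)) (b := 2 * π) (μ := MeasureTheory.volume)
            (hc2.intervalIntegrable _ _)
          simp only [reCLM_apply] at h3
          rw [← h3]
          apply intervalIntegral.integral_congr
          intro θ _
          simp only [rePoly, Polynomial.eval_monomial]
          have : a * (eθ θ ^ n * (kk G t₀ θ : ℂ)) = (a * eθ θ ^ n) * (kk G t₀ θ : ℂ) := by ring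
          rw [this, Complex.re_mul_ofReal]
        rw [h1, hk]
        simp only [rePoly, Polynomial.eval_monomial, sub_re]
        have h2 : (conj a / 2 * (t₀ ^ n)⁻¹).re = (a * t₀ ^ n).re / 2 := by
          rw [← conj_pow_eq ht₀]
          have : conj a / 2 * conj (t₀ ^ n) = conj (a * t₀ ^ n) / 2 := by
            rw [map_mul]; ring
          have h5 : ∀ z : ℂ, (conj z / 2).re = z.re / 2 := by intro z; simp
          rw [this, h5]
        have h3 : (a / 2 * φ t₀).re = (a * φ t₀).re / 2 := by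
          have : a / 2 * φ t₀ = (a * φ t₀) / 2 := by ring
          rw [this]
          simp
        rw [h2, h3]
        ring

omit hG in
/-- Products of real trigonometric polynomials. -/
lemma exists_mul_rePoly (u v : Polynomial ℂ) : ∃ w : Polynomial ℂ, ∀ t, ‖t‖ = 1 →
    rePoly u t * rePoly v t = rePoly w t := by
  induction u using Polynomial.induction_on' with
  | add p q hp hq =>
    obtain ⟨w₁, h₁⟩ := hp
    obtain ⟨w₂, h₂⟩ := hq
    refine ⟨w₁ + w₂, fun t ht => ?_⟩
    have e : ∀ (a b : Polynomial ℂ) t, rePoly (a + b) t = rePoly a t + rePoly b t := by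
      intro a b t; simp [rePoly]
    rw [e, e, add_mul, h₁ t ht, h₂ t ht]
  | monomial j a =>
    induction v using Polynomial.induction_on' with
    | add p q hp hq =>
      obtain ⟨w₁, h₁⟩ := hp
      obtain ⟨w₂, h₂⟩ := hq
      refine ⟨w₁ + w₂, fun t ht => ?_⟩
      have e : ∀ (a b : Polynomial ℂ) t, rePoly (a + b) t = rePoly a t + rePoly b t := by
        intro a b t; simp [rePoly]
      rw [e, e, mul_add, h₁ t ht, h₂ t ht]
    | monomial l b =>
      -- `Re x Re y = ½ Re (x y) + ½ Re (x conj y)`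
      have key : ∀ x y : ℂ, x.re * y.re = (x * y).re / 2 + (x * conj y).re / 2 := by
        intro x y
        simp [Complex.mul_re]
        ring
      by_cases hjl : l ≤ j
      · obtain ⟨d, rfl⟩ := Nat.exists_eq_add_of_le hjl
        refine ⟨Polynomial.monomial (l + d + l) (a * b / 2)
          + Polynomial.monomial d (a * conj b / 2), fun t ht => ?_⟩
        simp only [rePoly, Polynomial.eval_monomial, Polynomial.eval_add, add_re]
        rw [key, map_mul, conj_pow_eq ht]
        have ht0 : t ≠ 0 := by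
          intro h0; rw [h0, norm_zero] at ht; exact zero_ne_one ht
        have h1 : a * t ^ (l + d) * (b * t ^ l) = (a * b) * t ^ (l + d + l) := by ring
        have h2 : a * t ^ (l + d) * (conj b * (t ^ l)⁻¹) = (a * conj b) * t ^ d := by
          rw [pow_add]; field_simp
        rw [h1, h2]
        have h3 : ∀ z w : ℂ, (z / 2 * w).re = (z * w).re / 2 := by
          intro z w
          have : z / 2 * w = (z * w) / 2 := by ring
          rw [this]; simp
        rw [h3, h3]
      · push Not at hjl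
        obtain ⟨d, rfl⟩ := Nat.exists_eq_add_of_le hjl.le
        refine ⟨Polynomial.monomial (j + (j + d)) (a * b / 2)
          + Polynomial.monomial d (conj a * b / 2), fun t ht => ?_⟩
        simp only [rePoly, Polynomial.eval_monomial, Polynomial.eval_add, add_re]
        rw [key, map_mul, conj_pow_eq ht]
        have ht0 : t ≠ 0 := by
          intro h0; rw [h0, norm_zero] at ht; exact zero_ne_one ht
        have h1 : a * t ^ j * (b * t ^ (j + d)) = (a * b) * t ^ (j + (j + d)) := by ring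
        have h2 : a * t ^ j * (conj b * (t ^ (j + d))⁻¹) = conj (conj a * b * t ^ d) := by
          rw [map_mul, map_mul, conj_conj, conj_pow_eq ht, pow_add]
          field_simp
        rw [h1, h2, conj_re]
        have h3 : ∀ z w : ℂ, (z / 2 * w).re = (z * w).re / 2 := by
          intro z w
          have : z / 2 * w = (z * w) / 2 := by ring
          rw [this]; simp
        rw [h3, h3]

omit hG in
/-- Real part of an interval integral of a continuous function. -/
lemma integral_re {f : ℝ → ℂ} (hf : Continuous f) (a b : ℝ) :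
    (∫ θ in a..b, (f θ).re) = (∫ θ in a..b, f θ).re := by
  have h3 := Complex.reCLM.intervalIntegral_comp_comm
    (a := a) (b := b) (μ := MeasureTheory.volume) (hf.intervalIntegrable _ _)
  simpa only [reCLM_apply] using h3

/-- Jensen for the kernel. -/
lemma jensen_kk {t₀ : ℂ} (ht₀ : ‖t₀‖ = 1) {f : ℝ → ℝ} (hf : Continuous f) :
    (∫ θ in (0:ℝ)..2 * π, f θ * kk G t₀ θ) ^ 2 ≤ ∫ θ in (0:ℝ)..2 * π, f θ ^ 2 * kk G t₀ θ := by
  set a := ∫ θ in (0:ℝ)..2 * π, f θ * kk G t₀ θ with ha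
  have hk := hG.kk_cont ht₀
  have h2pi : (0:ℝ) ≤ 2 * π := by positivity
  have hnn : 0 ≤ ∫ θ in (0:ℝ)..2 * π, (f θ - a) ^ 2 * kk G t₀ θ :=
    intervalIntegral.integral_nonneg h2pi (fun θ _ =>
      mul_nonneg (sq_nonneg _) (hG.kk_nonneg ht₀ θ))
  have hpt : ∀ θ, (f θ - a) ^ 2 * kk G t₀ θ
      = f θ ^ 2 * kk G t₀ θ - 2 * a * (f θ * kk G t₀ θ) + a ^ 2 * kk G t₀ θ := by
    intro θ; ring
  simp_rw [hpt] at hnn
  have c1 : Continuous (fun θ => f θ ^ 2 * kk G t₀ θ) := (hf.pow 2).mul hk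
  have c2 : Continuous (fun θ => 2 * a * (f θ * kk G t₀ θ)) := continuous_const.mul (hf.mul hk)
  have c3 : Continuous (fun θ => a ^ 2 * kk G t₀ θ) := continuous_const.mul hk
  have c12 : Continuous (fun θ => f θ ^ 2 * kk G t₀ θ - 2 * a * (f θ * kk G t₀ θ)) := c1.sub c2
  rw [intervalIntegral.integral_add (c12.intervalIntegrable _ _) (c3.intervalIntegrable _ _),
    intervalIntegral.integral_sub (c1.intervalIntegrable _ _) (c2.intervalIntegrable _ _),
    intervalIntegral.integral_const_mul, intervalIntegral.integral_const_mul, hG.kk_int ht₀] at hnn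
  rw [← ha] at hnn
  nlinarith

/-- **Main lemma.** For a real trigonometric polynomial `r = Re u(t)`, there is a polynomial `P`
with `P(G) - r` the boundary value of an exterior function vanishing at infinity, and
`‖P(G)‖₂ ≤ ‖r‖₂` on the circle. -/
theorem main_lemma (u : Polynomial ℂ) : ∃ (P : Polynomial ℂ) (h : ℂ → ℂ), Ext r h 0 ∧
    (∀ t, ‖t‖ = 1 → P.eval (G t) = (rePoly u t : ℂ) + h t) ∧
    rmean (fun t => ‖P.eval (G t)‖ ^ 2) ≤ rmean (fun t => (rePoly u t) ^ 2) := by
  have hr0 := hG.r0_pos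
  have hr1 := hG.r0_lt
  obtain ⟨P, h, he, hP, hK⟩ := hG.exists_P u
  obtain ⟨w, hw⟩ := exists_mul_rePoly u u
  obtain ⟨P', h', he', hP', hK'⟩ := hG.exists_P w
  refine ⟨P, h, he, hP, ?_⟩
  have hpi : (0:ℝ) < 2 * π := by positivity
  have cR : Continuous (fun θ => rePoly u (eθ θ)) := cont_rePoly u
  have cH : Continuous (fun θ => h (eθ θ)) := cont_comp_eθ he.continuousOn hr1
  have cH' : Continuous (fun θ => h' (eθ θ)) := cont_comp_eθ he'.continuousOn hr1
  have cW : Continuous (fun θ => rePoly w (eθ θ)) := cont_rePoly w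
  have cHre : Continuous (fun θ => (h (eθ θ)).re) := continuous_re.comp cH
  have cH're : Continuous (fun θ => (h' (eθ θ)).re) := continuous_re.comp cH'
  have cHH : Continuous (fun θ => h (eθ θ) * h (eθ θ)) := cH.mul cH
  have cHHre : Continuous (fun θ => (h (eθ θ) * h (eθ θ)).re) := continuous_re.comp cHH
  -- the Hilbert space identity, pointwise
  have hpt : ∀ θ, ‖P.eval (G (eθ θ))‖ ^ 2 = (1 / 2) * (rePoly u (eθ θ)) ^ 2
      + (1 / 2) * (rePoly u (eθ θ) + 2 * (h (eθ θ)).re) ^ 2 - (h (eθ θ) * h (eθ θ)).re := by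
    intro θ
    rw [hP _ (norm_eθ θ), ← normSq_eq_norm_sq, normSq_apply]
    simp only [add_re, ofReal_re, add_im, ofReal_im, zero_add, mul_re]
    ring
  -- Jensen
  have hJ : ∀ θ₀, (rePoly u (eθ θ₀) + 2 * (h (eθ θ₀)).re) ^ 2
      ≤ rePoly w (eθ θ₀) + 2 * (h' (eθ θ₀)).re := by
    intro θ₀
    have ht₀ := norm_eθ θ₀
    have h1 := hG.jensen_kk ht₀ cR
    rw [hK _ ht₀] at h1
    have h2 : (∫ θ in (0:ℝ)..2 * π, (rePoly u (eθ θ)) ^ 2 * kk G (eθ θ₀) θ)
        = ∫ θ in (0:ℝ)..2 * π, rePoly w (eθ θ) * kk G (eθ θ₀) θ := by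
      apply intervalIntegral.integral_congr
      intro θ _
      simp only
      rw [← hw _ (norm_eθ θ)]
      ring
    rw [h2, hK' _ ht₀] at h1
    exact h1
  -- integrals
  have i1 : (∫ θ in (0:ℝ)..2 * π, (h (eθ θ) * h (eθ θ)).re) = 0 := by
    rw [integral_re cHH]
    have := integral_eq_mean (fun t => h t * h t)
    rw [this, (he.mul he).mean_eq hr0 hr1]
    simp
  have i2 : (∫ θ in (0:ℝ)..2 * π, (h' (eθ θ)).re) = 0 := by
    rw [integral_re cH']
    have := integral_eq_mean h'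
    rw [this, he'.mean_eq hr0 hr1]
    simp
  have i3 : (∫ θ in (0:ℝ)..2 * π, rePoly w (eθ θ))
      = ∫ θ in (0:ℝ)..2 * π, (rePoly u (eθ θ)) ^ 2 := by
    apply intervalIntegral.integral_congr
    intro θ _
    simp only
    rw [← hw _ (norm_eθ θ)]
    ring
  have c1 : Continuous (fun θ => (1 / 2 : ℝ) * (rePoly u (eθ θ)) ^ 2) :=
    continuous_const.mul (cR.pow 2)
  have cKr : Continuous (fun θ => rePoly u (eθ θ) + 2 * (h (eθ θ)).re) :=
    cR.add (continuous_const.mul cHre)
  have c2 : Continuous (fun θ => (1 / 2 : ℝ) * (rePoly u (eθ θ) + 2 * (h (eθ θ)).re) ^ 2) :=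
    continuous_const.mul (cKr.pow 2)
  have c12 : Continuous (fun θ => (1 / 2 : ℝ) * (rePoly u (eθ θ)) ^ 2
      + (1 / 2) * (rePoly u (eθ θ) + 2 * (h (eθ θ)).re) ^ 2) := c1.add c2
  have hmain : (∫ θ in (0:ℝ)..2 * π, ‖P.eval (G (eθ θ))‖ ^ 2)
      ≤ ∫ θ in (0:ℝ)..2 * π, (rePoly u (eθ θ)) ^ 2 := by
    simp_rw [hpt]
    rw [intervalIntegral.integral_sub (c12.intervalIntegrable _ _) (cHHre.intervalIntegrable _ _),
      i1, sub_zero,
      intervalIntegral.integral_add (c1.intervalIntegrable _ _) (c2.intervalIntegrable _ _),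
      intervalIntegral.integral_const_mul, intervalIntegral.integral_const_mul]
    have hmono : (∫ θ in (0:ℝ)..2 * π, (rePoly u (eθ θ) + 2 * (h (eθ θ)).re) ^ 2)
        ≤ ∫ θ in (0:ℝ)..2 * π, (rePoly w (eθ θ) + 2 * (h' (eθ θ)).re) :=
      intervalIntegral.integral_mono_on hpi.le ((cKr.pow 2).intervalIntegrable _ _)
        ((cW.add (continuous_const.mul cH're)).intervalIntegrable _ _) (fun θ _ => hJ θ)
    have hc2 : Continuous (fun θ => 2 * (h' (eθ θ)).re) := continuous_const.mul cH're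
    rw [intervalIntegral.integral_add (cW.intervalIntegrable _ _) (hc2.intervalIntegrable _ _),
      intervalIntegral.integral_const_mul, i2, i3] at hmono
    linarith
  unfold rmean
  exact mul_le_mul_of_nonneg_left hmain (by positivity)

end ConvexExtMap

end Crest.Agent.CrouzeixT
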